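import Vale.Agent.P073Z.CS.Sk
import Vale.Agent.P073Z.MAN
import Vale.Agent.P073Z.RCX2

/-!
# Level points on the boundary of a face, and the link of a vertex or an edge
-/

open Set Metric Topology Filter

namespace P073

variable {E : Type} [NormedAddCommGroup E] [NormedSpace ℝ E]

/-- the boundary of a cell is a manifold -/
theorem RCx.plMan_bd (K : RCx E) {i : K.ι} {n : ℕ} (h : K.dim i = n + 1) : PLMan n (K.bd i) :=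
  (ConBall.conSphere (h ▸ K.ball i)).plMan

theorem RCx.bd_nonempty (K : RCx E) {i : K.ι} {n : ℕ} (h : K.dim i = n + 1) :
    (K.bd i).Nonempty := by
  obtain ⟨φ⟩ := ConBall.conSphere (h ▸ K.ball i : ConBall (n + 1) _ _)
  obtain ⟨y, hy⟩ := (NormedSpace.sphere_nonempty (x := (0 : Fin (n + 1) → ℝ))).2 zero_le_one
  exact ⟨_, φ.mapsTo_inv hy⟩

/-- a proper face lies in a facet -/
theorem RCx.exists_facet (K : RCx E) {i j : K.ι} {n : ℕ} (h : K.dim i = n + 1)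
    (hj : K.cell j ⊆ K.bd i) : ∃ m, K.cell j ⊆ K.cell m ∧ K.cell m ⊆ K.bd i ∧ K.dim m = n :=
  Man.exists_top (K.sub_bd i) (K.plMan_bd h) hj

/-- a two-cell has two different vertices -/
theorem RCx.exists_two_vertices (K : RCx E) {φ : K.ι} (h : K.dim φ = 2) :
    ∃ j₁ j₂, j₁ ≠ j₂ ∧ K.dim j₁ = 0 ∧ K.dim j₂ = 0 ∧ K.cell j₁ ⊆ K.bd φ ∧ K.cell j₂ ⊆ K.bd φ := by
  obtain ⟨x, hx⟩ := K.bd_nonempty h
  obtain ⟨j, -, hj⟩ := K.sub_bd φ x hx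
  obtain ⟨e, -, he, hd⟩ := K.exists_facet h hj
  obtain ⟨p, q, j₁, j₂, ha, -, h1, h2, e1, e2, hne⟩ := K.exists_edge hd
  refine ⟨j₁, j₂, hne, h1, h2, ?_, ?_⟩
  · rw [e1]; exact singleton_subset_iff.2 (he ha.left_mem)
  · rw [e2]; exact singleton_subset_iff.2 (he ha.right_mem)

theorem cslev : CSLEV := by
  intro Q R i₀ G t hR hi₀ hfar ⟨y₀, hy₀, hGy₀⟩ hcard φ hφ
  have hdim : ∀ j, Q.cell j ⊆ Q.bd φ → Q.dim j ≤ 1 := fun j hj => by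
    have := Q.dim_lt hj
    omega
  have hlow : ∀ m, Q.dim m = 0 → ∀ y ∈ R m, G y ≠ t := by
    intro m hm y hy e
    by_cases h : Q.cell i₀ ⊆ Q.cell m
    · have e1 := Q.eq_of_subset_of_dim_le h (by omega)
      obtain ⟨⟨a, ha⟩, -⟩ := ConBall.zero_eq (hm ▸ hR.ball m (by omega))
      rw [e1, ha] at hy₀
      rw [ha] at hy
      rw [hy₀, ← hy] at hGy₀
      exact hGy₀.ne e
    · exact (hfar m (by omega) h y hy).ne' e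
  have hlev : ∀ y ∈ Q.rbd R φ, G y = t → ∃ e, Q.cell i₀ ⊆ Q.cell e ∧ Q.cell e ⊆ Q.bd φ ∧
      Q.dim e = 1 ∧ y ∈ R e := by
    intro y hy e
    obtain ⟨j, hj, hyj⟩ := Q.mem_rbd.1 hy
    refine ⟨j, by_contra fun h => (hfar j (hdim j hj) h y hyj).ne' e, hj, ?_, hyj⟩
    have h1 := hdim j hj
    have h2 : Q.dim j ≠ 0 := fun h => hlow j h y hyj e
    omega
  refine ⟨?_, fun h y hy => ?_, fun h => ?_⟩
  · obtain ⟨j, hj0, hj, hne⟩ : ∃ j, Q.dim j = 0 ∧ Q.cell j ⊆ Q.bd φ ∧ i₀ ≠ j := by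
      obtain ⟨j₁, j₂, hne, h1, h2, h3, h4⟩ := Q.exists_two_vertices hφ
      by_cases e : i₀ = j₁
      · exact ⟨j₂, h2, h4, e ▸ hne⟩
      · exact ⟨j₁, h1, h3, e⟩
    obtain ⟨y, hy⟩ := (hR.ball j (by omega)).nonempty
    exact ⟨y, Q.subset_rbd R hj hy, hfar j (by omega)
      (fun h => hne (Q.eq_of_subset_of_dim_le h (by omega))) y hy⟩
  · obtain ⟨j, hj, hyj⟩ := Q.mem_rbd.1 hy
    exact hfar j (hdim j hj) (fun h' => h (h'.trans (hj.trans (Q.bd_subset φ)))) y hyj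
  · have hb : Q.cell i₀ ⊆ Q.bd φ := Q.subset_bd_of_dim_lt h (by omega)
    refine ⟨⟨y₀, Q.subset_rbd R hb hy₀, hGy₀⟩, ?_⟩
    rcases Nat.le_one_iff_eq_zero_or_eq_one.1 hi₀ with h0 | h1
    · obtain ⟨e₁, e₂, hne, hiff⟩ := Man.two_top (n := 0) (Q.sub_bd φ) (Q.plMan_bd hφ) hb h0
      obtain ⟨a₁, b₁, d₁⟩ := (hiff e₁).2 (Or.inl rfl)
      obtain ⟨a₂, b₂, d₂⟩ := (hiff e₂).2 (Or.inr rfl)
      obtain ⟨p, hp⟩ := ncard_eq_one.1 ((hcard e₁ d₁ a₁).trans (by rw [h0]))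
      obtain ⟨q, hq⟩ := ncard_eq_one.1 ((hcard e₂ d₂ a₂).trans (by rw [h0]))
      have hp' : p ∈ {y ∈ R e₁ | G y = t} := hp ▸ mem_singleton p
      have hq' : q ∈ {y ∈ R e₂ | G y = t} := hq ▸ mem_singleton q
      refine ⟨p, q, fun e => ?_, Subset.antisymm ?_ ?_⟩
      · obtain ⟨m, hm, hpm⟩ := Q.mem_rbd.1 (hR.inter_subset_rbd (i := e₁) (j := e₂) (by omega)
          hne (by omega) ⟨hp'.1, e ▸ hq'.1⟩)
        have := Q.dim_lt hm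
        exact hlow m (by omega) p hpm hp'.2
      · rintro y ⟨hy, hGy⟩
        obtain ⟨e, a, b, d, hye⟩ := hlev y hy hGy
        rcases (hiff e).1 ⟨a, b, d⟩ with rfl | rfl
        · exact Or.inl (hp ▸ (⟨hye, hGy⟩ : y ∈ {y ∈ R e | G y = t}) : y ∈ ({p} : Set E3))
        · exact Or.inr (hq ▸ (⟨hye, hGy⟩ : y ∈ {y ∈ R e | G y = t}) : y ∈ ({q} : Set E3))
      · rintro y (rfl | rfl)
        · exact ⟨Q.subset_rbd R b₁ hp'.1, hp'.2⟩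
        · exact ⟨Q.subset_rbd R b₂ hq'.1, hq'.2⟩
    · obtain ⟨p, q, hne, hpq⟩ := ncard_eq_two.1 ((hcard i₀ h1 Subset.rfl).trans (by rw [h1]))
      refine ⟨p, q, hne, ?_⟩
      rw [← hpq]
      refine Subset.antisymm ?_ fun y hy => ⟨Q.subset_rbd R hb hy.1, hy.2⟩
      rintro y ⟨hy, hGy⟩
      obtain ⟨e, a, -, d, hye⟩ := hlev y hy hGy
      rw [Q.eq_of_subset_of_dim_le a (by omega)]
      exact ⟨hye, hGy⟩

theorem csgam : CSGAM := by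
  intro Q i₀ α Z hQ hi₀ hα hZ
  have hM : PLMan 3 Q.carrier := plMan_open hQ
  have htop : ∀ j, ∃ T, Q.cell j ⊆ Q.cell T ∧ Q.dim T = 3 := fun j =>
    let ⟨T, h1, _, h2⟩ := Man.exists_top Q.sub_carrier hM (Q.cell_subset_carrier j); ⟨T, h1, h2⟩
  have hlast : ∀ e, Q.dim e ≤ 1 → ∃ φ, Q.dim φ = 2 ∧ Q.cell e ⊆ Q.cell φ := by
    intro e he
    obtain ⟨T, h1, h2⟩ := htop e
    obtain ⟨φ, h3, -, h4⟩ := Q.exists_facet h2 (Q.subset_bd_of_dim_lt h1 (by omega))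
    exact ⟨φ, h4, h3⟩
  refine ⟨⟨?_, ?_⟩, hlast⟩
  · obtain ⟨φ, h1, h2⟩ := hlast i₀ hi₀
    obtain ⟨e, h3, h4, h5⟩ := Q.exists_facet h1 (Q.subset_bd_of_dim_lt h2 (by omega))
    obtain ⟨z, hz⟩ := hZ e h5 h3
    exact ⟨z, mem_iUnion₂.2 ⟨φ, ⟨h1, h2⟩, (hα φ h1 h2).2 e h5 h3 (h4.trans (Q.bd_subset φ)) hz⟩⟩
  obtain ⟨x, hx⟩ := Q.ocell_nonempty i₀
  refine IsPreconnected.biUnion_of_reflTransGen
    (t := {φ | Q.dim φ = 2 ∧ Q.cell i₀ ⊆ Q.cell φ}) (fun φ h => (hα φ h.1 h.2).1) ?_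
  intro φ₀ h₀ φ hφ
  let c : Q.ι → Prop := Relation.ReflTransGen
    (fun i j => (α i ∩ α j).Nonempty ∧ i ∈ {φ | Q.dim φ = 2 ∧ Q.cell i₀ ⊆ Q.cell φ}) φ₀
  have step : ∀ T, Q.dim T = 3 → ∀ ψ ψ', Q.dim ψ = 2 → Q.dim ψ' = 2 → x ∈ Q.cell ψ →
      x ∈ Q.cell ψ' → Q.cell ψ ⊆ Q.cell T → Q.cell ψ' ⊆ Q.cell T → c ψ → c ψ' := by
    intro T hT ψ ψ' d d' m m' s s'
    have b := Q.subset_bd_of_dim_lt s (by omega)
    refine Man.dual_conn (n := 1) (Q.sub_bd T) (Q.plMan_bd hT) (b m) c ?_ m m' b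
      (Q.subset_bd_of_dim_lt s' (by omega)) d d'
    intro e j j' he de s₁ s₂ _ _ d₁ d₂ hc
    have h1 := Q.cell_subset_of_mem hx he
    obtain ⟨z, hz⟩ := hZ e de h1
    exact hc.tail ⟨⟨z, (hα j d₁ (h1.trans s₁)).2 e de h1 s₁ hz,
      (hα j' d₂ (h1.trans s₂)).2 e de h1 s₂ hz⟩, d₁, h1.trans s₁⟩
  obtain ⟨T₀, a₀, b₀⟩ := htop φ₀
  obtain ⟨T, a, b⟩ := htop φ
  refine Man.dual_conn (n := 2) Q.sub_carrier hM (Q.cell_subset_carrier i₀ hx.1)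
    (fun T => ∀ ψ, Q.dim ψ = 2 → x ∈ Q.cell ψ → Q.cell ψ ⊆ Q.cell T → c ψ) ?_
    (a₀ (h₀.2 hx.1)) (a (hφ.2 hx.1)) (Q.cell_subset_carrier _) (Q.cell_subset_carrier _) b₀ b
    (fun ψ d m s => step T₀ b₀ φ₀ ψ h₀.1 d (h₀.2 hx.1) m a₀ s Relation.ReflTransGen.refl)
    φ hφ.1 (hφ.2 hx.1) a
  intro ψ j j' m d s₁ s₂ _ _ _ d₂ hc ψ' d' m' s'
  exact step j' d₂ ψ ψ' d d' m m' s₂ s' (hc ψ d m s₁)

end P073
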