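import Vale.Agent.P073Z.CS.Sk
import Vale.Agent.P073Z.A2
import Vale.Agent.P073Z.DISC2
import Vale.Agent.P073Z.A12

/-!
# Caps over circles on a star-shaped sphere
-/

open Set Metric Topology Filter

namespace P073

namespace CSurg

variable {g : E3 → ℝ} {t : ℝ}

theorem g_zero (hh : ∀ x, ∀ r : ℝ, 0 ≤ r → g (r • x) = r * g x) : g 0 = 0 := by
  simpa using hh 0 0 le_rfl

/-- the level set is a sphere -/
theorem level_sphere (hS : STAR) (hg : PLOn g univ)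
    (hh : ∀ x, ∀ r : ℝ, 0 ≤ r → g (r • x) = r * g x) (hp : ∀ x, x ≠ 0 → 0 < g x) (ht : 0 < t) :
    ConSphere 2 {x | g x = t} := by
  obtain ⟨Φ, h1, -, -, -⟩ := hS (N₁ := fun x => t⁻¹ * g x) (N₂ := fun x : E3 => ‖x‖)
    (ι := Empty) (fun _ => ∅) (A2.pl_mul _ hg) (A2.pl_norm_pi 3)
    (fun x r hr => ⟨by rw [hh x r hr]; ring, by rw [norm_smul, Real.norm_of_nonneg hr]⟩)
    (fun x hx => ⟨mul_pos (inv_pos.2 ht) (hp x hx), norm_pos_iff.2 hx⟩) (fun i => i.elim)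
  have hc : ConicalSet {x | g x = t} :=
    (locCone_setOf_eq (continuousOn_univ.1 hg.1) hg.2 t).conicalSet
  refine ⟨(Φ.restr hc (subset_univ _)).cast rfl ?_⟩
  ext y
  rw [mem_sphere_zero_iff_norm]
  constructor
  · rintro ⟨x, hx, rfl⟩
    rw [h1 x, show g x = t from hx, inv_mul_cancel₀ ht.ne']
  · intro hy
    refine ⟨Φ.invFun y, ?_, Φ.right_inv (mem_univ _)⟩
    have h2 := h1 (Φ.invFun y)
    rw [Φ.right_inv (mem_univ _), hy] at h2
    show g _ = t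
    field_simp at h2
    exact h2.symm

theorem sphere_compact {E : Type} [NormedAddCommGroup E] [NormedSpace ℝ E] {n : ℕ} {S : Set E}
    (h : ConSphere n S) : IsCompact S := by
  obtain ⟨φ⟩ := h
  exact φ.symm.isCompact_right (isCompact_sphere _ _)

/-- the homogeneous extension of a function on the level set -/
noncomputable def hom (g : E3 → ℝ) (t : ℝ) (φ : E3 → ℝ) (y : E3) : ℝ :=
  (g y / t) * φ ((t / g y) • y)

theorem hom_smul (hh : ∀ x, ∀ r : ℝ, 0 ≤ r → g (r • x) = r * g x) (φ : E3 → ℝ) (y : E3) {r : ℝ}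
    (hr : 0 ≤ r) : hom g t φ (r • y) = r * hom g t φ y := by
  unfold hom
  rcases eq_or_lt_of_le hr with rfl | h0
  · simp [g_zero hh]
  · rw [hh y r hr, smul_smul]
    have : t / (r * g y) * r = t / g y := by
      rw [mul_comm r, ← div_div, div_mul_cancel₀ _ h0.ne']
    rw [this]; ring

theorem hom_level (ht : 0 < t) (φ : E3 → ℝ) {y : E3} (hy : g y = t) : hom g t φ y = φ y := by
  unfold hom
  rw [hy, div_self ht.ne', one_smul, one_mul]

theorem g_nonneg (hh : ∀ x, ∀ r : ℝ, 0 ≤ r → g (r • x) = r * g x) (hp : ∀ x, x ≠ 0 → 0 < g x)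
    (y : E3) : 0 ≤ g y := by
  by_cases h : y = 0
  · rw [h, g_zero hh]
  · exact (hp y h).le

theorem hom_nonneg (hh : ∀ x, ∀ r : ℝ, 0 ≤ r → g (r • x) = r * g x) (hp : ∀ x, x ≠ 0 → 0 < g x)
    (ht : 0 < t) {φ : E3 → ℝ} (h0 : ∀ x, 0 ≤ φ x) (y : E3) : 0 ≤ hom g t φ y :=
  mul_nonneg (div_nonneg (g_nonneg hh hp y) ht.le) (h0 _)

/-- polar coordinates -/
theorem polar (hh : ∀ x, ∀ r : ℝ, 0 ≤ r → g (r • x) = r * g x) (hp : ∀ x, x ≠ 0 → 0 < g x)
    (ht : 0 < t) {y : E3} (hy : y ≠ 0) : ∃ x, g x = t ∧ y = (g y / t) • x := by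
  have h := hp y hy
  refine ⟨(t / g y) • y, ?_, ?_⟩
  · rw [hh _ _ (div_nonneg ht.le h.le), div_mul_cancel₀ _ h.ne']
  · rw [smul_smul, div_mul_div_cancel₀ ht.ne', div_self h.ne', one_smul]

theorem rayBase_level (hh : ∀ x, ∀ r : ℝ, 0 ≤ r → g (r • x) = r * g x) (ht : 0 < t)
    (hc : IsCompact {x | g x = t}) : RayBase {x | g x = t} := by
  refine ⟨hc, fun h => ?_, fun x hx s hs hsx => ?_⟩
  · have : g 0 = t := h
    rw [g_zero hh] at this
    exact ht.ne this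
  · have h1 : g (s • x) = t := hsx
    rw [hh x s hs.le, show g x = t from hx] at h1
    exact mul_right_cancel₀ ht.ne' (h1.trans (one_mul t).symm)

theorem pl_hom (hS : STAR) (hg : PLOn g univ)
    (hh : ∀ x, ∀ r : ℝ, 0 ≤ r → g (r • x) = r * g x) (hp : ∀ x, x ≠ 0 → 0 < g x) (ht : 0 < t)
    {φ : E3 → ℝ} (hφ : PLOn φ univ) : PLOn (hom g t φ) univ := by
  have hgc : Continuous g := continuousOn_univ.1 hg.1
  have hsp := level_sphere hS hg hh hp ht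
  have hb := rayBase_level hh ht (sphere_compact hsp)
  have hc : ConicalSet {x | g x = t} := (locCone_setOf_eq hgc hg.2 t).conicalSet
  have hφ' := A2.pl_mono hφ hc (subset_univ _)
  have h1 : PLOn (hom g t φ) (coneSet {x | g x = t}) := by
    refine A2.pl_congr ⟨continuousOn_coneMap hb hφ'.1, conicalOn_coneMap hb hφ'.2⟩ ?_
    rintro _ ⟨s, hs, x, hx, rfl⟩
    rw [coneMap_smul hb φ hs hx, hom_smul hh φ x hs.1, hom_level ht φ hx, smul_eq_mul]
  have hne : ∃ x, g x = t := by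
    obtain ⟨x, hx, -⟩ := polar hh hp ht (y := fun _ => 1) (fun h => by simpa using congrFun h 0)
    exact ⟨x, hx⟩
  have h2 : ∀ y, g y ≤ t → y ∈ coneSet {x | g x = t} := by
    intro y hy
    by_cases h0 : y = 0
    · obtain ⟨x, hx⟩ := hne
      exact ⟨0, ⟨le_rfl, zero_le_one⟩, x, hx, by rw [h0, zero_smul]⟩
    · obtain ⟨x, hx, e⟩ := polar hh hp ht h0
      exact ⟨_, ⟨div_nonneg (g_nonneg hh hp y) ht.le, (div_le_one ht).2 hy⟩, x, hx, e⟩
  have key : ∀ x, ContinuousWithinAt (hom g t φ) univ x ∧ ConicalWithinAt (hom g t φ) univ x := by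
    intro x
    have hx0 := g_nonneg hh hp x
    set l : ℝ := t / (g x + 1) with hl
    have hl0 : 0 < l := div_pos ht (by linarith)
    have hU : IsOpen {y | g y < g x + 1} := isOpen_lt hgc continuous_const
    have hUc : ConicalSet {y | g y < g x + 1} := IsOpen.conicalSet hU
    have h3 : PLOn (fun y => l⁻¹ * hom g t φ (l • y)) {y | g y < g x + 1} := by
      refine A2.pl_mul _ (A2.pl_comp h1 (A2.pl_smul l (A2.pl_id hUc)) fun y hy => h2 _ ?_)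
      have hy' : g y < g x + 1 := hy
      rw [hh y l hl0.le, hl, div_mul_eq_mul_div, div_le_iff₀ (by linarith)]
      exact mul_le_mul_of_nonneg_left hy'.le ht.le
    have h4 : ∀ y, hom g t φ y = l⁻¹ * hom g t φ (l • y) := fun y => by
      rw [hom_smul hh φ y hl0.le, ← mul_assoc, inv_mul_cancel₀ hl0.ne', one_mul]
    have hx : x ∈ {y | g y < g x + 1} := lt_add_one (g x)
    have h5 : PLOn (hom g t φ) {y | g y < g x + 1} := A2.pl_congr h3 fun y _ => h4 y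
    refine ⟨((h5.1 x hx).continuousAt (hU.mem_nhds hx)).continuousWithinAt,
      (h5.2 x hx).congr_nhds ?_ (Eventually.of_forall fun _ _ => rfl) rfl⟩
    filter_upwards [hU.mem_nhds hx] with y hy
    exact ⟨fun _ => hy, fun _ => mem_univ _⟩
  exact ⟨fun x _ => (key x).1, fun x _ => (key x).2⟩

/-- one cap -/
theorem exists_cap (hS : STAR) (hg : PLOn g univ)
    (hh : ∀ x, ∀ r : ℝ, 0 ≤ r → g (r • x) = r * g x) (hp : ∀ x, x ≠ 0 → 0 < g x) (ht : 0 < t)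
    {Δ J : Set E3} (hΔ : ConBall 2 Δ J) (hl : ∀ x ∈ Δ, g x = t) {h : E3 → ℝ} (hpl : PLOn h univ)
    (h0 : ∀ x, 0 ≤ h x) (hJ : ∀ x ∈ J, h x = 0) :
    ∃ C, ConBall 2 C J ∧ ∀ y ∈ C, ∃ s, 0 < s ∧ ∃ x ∈ Δ, y = s • x ∧ s * (t + h x) = t := by
  obtain ⟨d, hd, -, hd0⟩ := A2.exists_plDist hΔ.isCompact hΔ.locCone hΔ.isConnected.nonempty
  have hd' := pl_hom hS hg hh hp ht hd
  have hh' := pl_hom hS hg hh hp ht hpl
  obtain ⟨Φ, h1, -, h3, h4⟩ := hS (N₁ := g) (N₂ := fun x => g x + hom g t h x)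
    (ι := Unit) (fun _ => {x | hom g t d x = 0}) hg (A2.pl_add hg hh')
    (fun x r hr => ⟨hh x r hr, by rw [hh x r hr, hom_smul hh h x hr]; ring⟩)
    (fun x hx => ⟨hp x hx, add_pos_of_pos_of_nonneg (hp x hx) (hom_nonneg hh hp ht h0 x)⟩)
    (fun _ => ⟨locCone_setOf_eq (continuousOn_univ.1 hd'.1) hd'.2 0, fun x r hr => by
      show hom g t d (r • x) = 0 ↔ hom g t d x = 0
      rw [hom_smul hh d x hr.le, mul_eq_zero, or_iff_right hr.ne']⟩)
  have hfix : Φ.toFun '' J = J := by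
    refine EqOn.image_eq_self fun x hx => h4 x ?_
    rw [hom_level ht h (hl x (hΔ.1 hx)), hJ x hx, add_zero]
  refine ⟨Φ.toFun '' Δ, hfix ▸ hΔ.image Φ (subset_univ _), ?_⟩
  rintro _ ⟨x₀, hx₀, rfl⟩
  have e1 := h1 x₀
  rw [hl x₀ hx₀] at e1
  have e2 : hom g t d (Φ.toFun x₀) = 0 := (h3 () x₀).2 (by
    show hom g t d x₀ = 0
    rw [hom_level ht d (hl x₀ hx₀)]; exact (hd0 x₀).2 hx₀)
  have hy : Φ.toFun x₀ ≠ 0 := by
    intro hz
    have : hom g t h 0 = 0 := by simpa using hom_smul (t := t) hh h 0 le_rfl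
    rw [hz, g_zero hh] at e1
    linarith
  obtain ⟨x, hx, e⟩ := polar hh hp ht hy
  have hs : 0 < g (Φ.toFun x₀) / t := div_pos (hp _ hy) ht
  generalize g (Φ.toFun x₀) / t = s at e hs
  rw [e] at e1 e2
  rw [hom_smul hh d x hs.le, hom_level ht d hx, mul_eq_zero, or_iff_right hs.ne'] at e2
  rw [hom_smul hh h x hs.le, hom_level ht h hx, hh x s hs.le, hx] at e1
  exact ⟨s, hs, x, (hd0 x).1 e2, e, by linarith⟩

theorem side {T : Type} [TopologicalSpace T] {P Q Z : Set T} (hP : IsClosed P) (hQ : IsClosed Q)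
    (hZ : IsPreconnected Z) (hs : Z ⊆ P ∪ Q) (hd : Disjoint Z (P ∩ Q)) : Z ⊆ P ∨ Z ⊆ Q :=
  isPreconnected_iff_subset_of_disjoint_closed.1 hZ P Q hP hQ hs (disjoint_iff_inter_eq_empty.1 hd)

/-- the discs missing a connected set form a laminar family -/
theorem laminar (hC : COS) {E : Type} [NormedAddCommGroup E] [NormedSpace ℝ E] {ι : Type}
    (s : Finset ι) (J : ι → Set E) {S Γ : Set E} (hS : ConSphere 2 S)
    (hJ : ∀ i ∈ s, IsCircle (J i) ∧ J i ⊆ S ∧ Disjoint (J i) Γ)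
    (hd : ∀ i ∈ s, ∀ j ∈ s, i ≠ j → Disjoint (J i) (J j)) (hΓ : IsConnected Γ) (hΓS : Γ ⊆ S) :
    ∃ Δ : ι → Set E, (∀ i ∈ s, ConBall 2 (Δ i) (J i) ∧ Δ i ⊆ S ∧ Disjoint (Δ i) Γ) ∧
      ∀ i ∈ s, ∀ j ∈ s, i ≠ j → Disjoint (Δ i) (Δ j) ∨ Δ i ⊆ Δ j \ J j ∨ Δ j ⊆ Δ i \ J i := by
  have H : ∀ i, ∃ P Q : Set E, i ∈ s → ConBall 2 P (J i) ∧ ConBall 2 Q (J i) ∧ P ∪ Q = S ∧
      P ∩ Q = J i ∧ (∀ Δ, Δ ⊆ S → ConBall 2 Δ (J i) → Δ = P ∨ Δ = Q) ∧ Γ ⊆ Q := by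
    intro i
    by_cases hi : i ∈ s
    · obtain ⟨a, b, c⟩ := hJ i hi
      obtain ⟨P, Q, h1, h2, h3, h4, h5⟩ := hC.1 hS a b
      rcases side h1.isClosed h2.isClosed hΓ.2 (h3 ▸ hΓS) (h4 ▸ c.symm) with h | h
      · exact ⟨Q, P, fun _ => ⟨h2, h1, by rw [union_comm, h3], by rw [inter_comm, h4],
          fun Δ u v => (h5 Δ u v).symm, h⟩⟩
      · exact ⟨P, Q, fun _ => ⟨h1, h2, h3, h4, h5, h⟩⟩
    · exact ⟨∅, ∅, fun h => absurd h hi⟩
  choose P Q H using H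
  have hPS : ∀ i ∈ s, P i ⊆ S := fun i hi => (H i hi).2.2.1 ▸ subset_union_left
  have hPΓ : ∀ i ∈ s, Disjoint (P i) Γ := fun i hi => by
    obtain ⟨-, -, -, h4, -, h6⟩ := H i hi
    refine disjoint_left.2 fun x hx hx' => ?_
    exact disjoint_left.1 (hJ i hi).2.2 (h4 ▸ ⟨hx, h6 hx'⟩) hx'
  have nest : ∀ i ∈ s, ∀ j ∈ s, i ≠ j → J j ⊆ P i → P j ⊆ P i \ J i := by
    intro i hi j hj hij h
    obtain ⟨δ, d1, d2, -, d3, -⟩ := cid (H i hi).1 (hJ j hj).1 h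
    rcases (H j hj).2.2.2.2.1 δ (d1.trans (hPS i hi)) d2 with e | e
    · rw [← e]
      refine fun x hx => ⟨d1 hx, fun hx' => ?_⟩
      by_cases hxj : x ∈ J j
      · exact disjoint_left.1 (hd i hi j hj hij) hx' hxj
      · exact disjoint_left.1 d3 ⟨hx, hxj⟩ hx'
    · obtain ⟨x, hx⟩ := hΓ.1
      exact (disjoint_left.1 (hPΓ i hi) (d1 (e ▸ (H j hj).2.2.2.2.2 hx)) hx).elim
  have alt : ∀ i ∈ s, ∀ j ∈ s, i ≠ j → J j ⊆ P i ∨ J j ⊆ Q i := by
    intro i hi j hj hij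
    obtain ⟨h1, h2, h3, h4, -⟩ := H i hi
    exact side h1.isClosed h2.isClosed (A12.circle_isConnected (hJ j hj).1).2
      (h3 ▸ (hJ j hj).2.1) (h4 ▸ hd j hj i hi hij.symm)
  refine ⟨P, fun i hi => ⟨(H i hi).1, hPS i hi, hPΓ i hi⟩, fun i hi j hj hij => ?_⟩
  rcases alt i hi j hj hij with h | h
  · exact Or.inr (Or.inr (nest i hi j hj hij h))
  rcases alt j hj i hi hij.symm with h' | h'
  · exact Or.inr (Or.inl (nest j hj i hi hij.symm h'))
  left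
  obtain ⟨a1, a2, a3, a4, -⟩ := H i hi
  obtain ⟨b1, b2, b3, b4, -⟩ := H j hj
  have hdis : Disjoint (P i) (J j) := disjoint_left.2 fun x hx hx' =>
    disjoint_left.1 (hd i hi j hj hij) (a4 ▸ ⟨hx, h hx'⟩) hx'
  rcases side b1.isClosed b2.isClosed a1.isConnected.2 (b3 ▸ hPS i hi) (b4 ▸ hdis) with k | k
  · obtain ⟨x, hx⟩ := (A12.circle_isConnected (hJ i hi).1).1
    exact (disjoint_left.1 hdis (a1.1 hx) (b4 ▸ ⟨k (a1.1 hx), h' hx⟩)).elim
  · exact disjoint_left.2 fun x hx hx' => disjoint_left.1 hdis hx (b4 ▸ ⟨hx', k hx⟩)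

theorem cap_zero (hS : STAR) (hC : COS) {ι : Type} (s : Finset ι) (J : ι → Set E3) {Γ : Set E3}
    (hg : PLOn g univ) (hh : ∀ x, ∀ r : ℝ, 0 ≤ r → g (r • x) = r * g x)
    (hp : ∀ x, x ≠ 0 → 0 < g x) (ht : 0 < t)
    (hJ : ∀ i ∈ s, IsCircle (J i) ∧ (∀ y ∈ J i, g y = t) ∧ Disjoint (J i) Γ)
    (hd : ∀ i ∈ s, ∀ j ∈ s, i ≠ j → Disjoint (J i) (J j)) (hΓ : IsConnected Γ)
    (hΓt : ∀ y ∈ Γ, g y = t) :
    ∃ C : ι → Set E3, (∀ i ∈ s, ConBall 2 (C i) (J i) ∧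
      (∀ y ∈ C i, g y ≤ t ∧ (g y = t → y ∈ J i)) ∧ Disjoint (C i) (coneSet Γ)) ∧
      ∀ i ∈ s, ∀ j ∈ s, i ≠ j → Disjoint (C i) (C j) := by
  have hsp := level_sphere hS hg hh hp ht
  have hb := rayBase_level hh ht (sphere_compact hsp)
  obtain ⟨Δ, hΔ, hlam⟩ := laminar hC s J hsp hJ hd hΓ hΓt
  obtain ⟨h, h1, h2⟩ := cap s Δ J one_pos fun i hi => ⟨(hΔ i hi).1.isCompact,
    (hΔ i hi).1.isCompact_bdry, (hΔ i hi).1.locCone_bdry,
    (A12.circle_isConnected (hJ i hi).1).1, (hΔ i hi).1.1⟩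
  have H : ∀ i, ∃ C : Set E3, i ∈ s → ConBall 2 C (J i) ∧
      ∀ y ∈ C, ∃ r, 0 < r ∧ ∃ x ∈ Δ i, y = r • x ∧ r * (t + h i x) = t := by
    intro i
    by_cases hi : i ∈ s
    · obtain ⟨C, hC⟩ := exists_cap hS hg hh hp ht (hΔ i hi).1 (hΔ i hi).2.1 (h1 i hi).1
        (fun x => ((h1 i hi).2.1 x).1) fun x hx => ((h1 i hi).2.2 x).2 hx
      exact ⟨C, fun _ => hC⟩
    · exact ⟨∅, fun h => absurd h hi⟩
  choose C H using H
  refine ⟨C, fun i hi => ⟨(H i hi).1, fun y hy => ?_, disjoint_left.2 fun y hy hy' => ?_⟩,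
    fun i hi j hj hij => disjoint_left.2 fun y hy hy' => ?_⟩
  · obtain ⟨r, hr, x, hx, rfl, e⟩ := (H i hi).2 y hy
    have h0 := ((h1 i hi).2.1 x).1
    have hx' : g x = t := (hΔ i hi).2.1 hx
    rw [hh x r hr.le, hx']
    refine ⟨by nlinarith, fun e' => ?_⟩
    have hr1 : r = 1 := mul_right_cancel₀ ht.ne' (e'.trans (one_mul t).symm)
    rw [hr1, one_mul] at e
    rw [hr1, one_smul]
    exact ((h1 i hi).2.2 x).1 (by linarith)
  · obtain ⟨r, hr, x, hx, rfl, -⟩ := (H i hi).2 y hy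
    obtain ⟨r', hr', x', hx', e⟩ := hy'
    have hx0 : g x = t := (hΔ i hi).2.1 hx
    rcases eq_or_lt_of_le hr'.1 with rfl | h0
    · have := congrArg g e
      rw [zero_smul, g_zero hh, hh x r hr.le, hx0] at this
      exact (mul_pos hr ht).ne' this
    · obtain ⟨-, e'⟩ := hb.unique hx0 (hΓt x' hx') hr h0 e
      exact disjoint_left.1 (hΔ i hi).2.2 hx (e' ▸ hx')
  · obtain ⟨r, hr, x, hx, rfl, e₁⟩ := (H i hi).2 y hy
    obtain ⟨r', hr', x', hx', e, e₂⟩ := (H j hj).2 _ hy'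
    obtain ⟨rfl, rfl⟩ := hb.unique ((hΔ i hi).2.1 hx) ((hΔ j hj).2.1 hx') hr hr' e
    have e₃ : h i x = h j x := by
      have := mul_left_cancel₀ hr.ne' (e₁.trans e₂.symm)
      linarith
    rcases hlam i hi j hj hij with k | k | k
    · exact disjoint_left.1 k hx hx'
    · exact (h2 i hi j hj k x hx).ne e₃
    · exact (h2 j hj i hi k x hx').ne e₃.symm

end CSurg

open CSurg in
theorem cscap_of (hS : STAR) (hC : COS) : CSCAP := by
  intro ι s J g c t Γ hg hh hp ht hJ hd hΓ hΓt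
  let T := ConHomeo.translate (-c) A2.conicalSet_univ
  let T' := ConHomeo.translate c A2.conicalSet_univ
  have hinj : Function.Injective fun x : E3 => x + -c := add_left_injective _
  have hinj' : Function.Injective fun x : E3 => x + c := add_left_injective _
  obtain ⟨C, h1, h2⟩ := cap_zero hS hC s (fun i => (fun x => x + -c) '' J i)
    (Γ := (fun x => x + -c) '' Γ) hg hh hp ht
    (fun i hi => ⟨A12.circle_image (hJ i hi).1 T (subset_univ _), by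
      rintro _ ⟨y, hy, rfl⟩
      simpa [sub_eq_add_neg] using (hJ i hi).2.1 y hy,
      (disjoint_image_iff hinj).2 (hJ i hi).2.2⟩)
    (fun i hi j hj hij => (disjoint_image_iff hinj).2 (hd i hi j hj hij))
    (hΓ.image _ (by fun_prop)) (by
      rintro _ ⟨y, hy, rfl⟩
      simpa [sub_eq_add_neg] using hΓt y hy)
  refine ⟨fun i => (fun x => x + c) '' C i, fun i hi => ⟨?_, ?_, ?_⟩,
    fun i hi j hj hij => (disjoint_image_iff hinj').2 (h2 i hi j hj hij)⟩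
  · have := (h1 i hi).1.image T' (subset_univ _)
    rw [image_image] at this
    have e : (fun x => T'.toFun (x + -c)) '' J i = J i :=
      EqOn.image_eq_self fun x _ => by simp [T']
    rw [e] at this
    exact this
  · rintro _ ⟨y, hy, rfl⟩
    obtain ⟨a, b⟩ := (h1 i hi).2.1 y hy
    simp only [add_sub_cancel_right]
    refine ⟨a, fun e => ?_⟩
    obtain ⟨z, hz, rfl⟩ := b e
    simpa using hz
  · rw [coneSetAt_eq]
    exact (disjoint_image_iff hinj').2 (h1 i hi).2.2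

end P073
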