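import Vale.Agent.P073Z.CS.Cap

/-!
# Surgery in one face
-/

open Set Metric Topology Filter

namespace P073

namespace CSurg

variable {E : Type} [NormedAddCommGroup E] [NormedSpace ℝ E]

/-- maximal members of a laminar family -/
theorem exists_maximal {ι T : Type} (s : Finset ι) (Δ : ι → Set T)
    (h : ∀ i ∈ s, ∀ j ∈ s, i ≠ j → Disjoint (Δ i) (Δ j) ∨ Δ i ⊂ Δ j ∨ Δ j ⊂ Δ i) :
    ∃ s' ⊆ s, (∀ i ∈ s', ∀ j ∈ s', i ≠ j → Disjoint (Δ i) (Δ j)) ∧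
      (∀ i ∈ s, ∃ j ∈ s', Δ i ⊆ Δ j) ∧ ∀ i ∈ s, (∀ j ∈ s, ¬ Δ i ⊂ Δ j) → i ∈ s' := by
  classical
  refine ⟨s.filter fun i => ∀ j ∈ s, ¬ Δ i ⊂ Δ j, Finset.filter_subset _ _,
    fun i hi j hj hne => ?_, fun i hi => ?_, fun i hi h => Finset.mem_filter.2 ⟨hi, h⟩⟩
  · obtain ⟨a, a'⟩ := Finset.mem_filter.1 hi
    obtain ⟨b, b'⟩ := Finset.mem_filter.1 hj
    rcases h i a j b hne with k | k | k
    · exact k
    · exact absurd k (a' j b)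
    · exact absurd k (b' i a)
  · obtain ⟨j, hm⟩ := (s.filter fun j => Δ i ⊆ Δ j).exists_maximalFor Δ
      ⟨i, Finset.mem_filter.2 ⟨hi, Subset.rfl⟩⟩
    obtain ⟨a, b⟩ := Finset.mem_filter.1 hm.1
    exact ⟨j, Finset.mem_filter.2 ⟨a, fun k hk hlt =>
      hlt.2 (hm.2 (Finset.mem_filter.2 ⟨hk, b.trans hlt.1⟩) hlt.1)⟩, b⟩

/-- the data of the disc bounded by a circle -/
structure Sub (D B J Δ : Set E) : Prop where
  sub : Δ ⊆ D
  ball : ConBall 2 Δ J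
  uniq : ∀ Δ', Δ' ⊆ D → ConBall 2 Δ' J → Δ' = Δ
  disj : Disjoint Δ B
  nhds : ∀ x ∈ Δ \ J, Δ ∈ 𝓝[D] x

theorem exists_sub {D B J : Set E} (hD : ConBall 2 D B) (hJ : IsCircle J) (h : J ⊆ D)
    (hd : Disjoint J B) : ∃ Δ, Sub D B J Δ := by
  obtain ⟨Δ, a, b, c, d, e, -⟩ := cid hD hJ h
  refine ⟨Δ, a, b, c, disjoint_left.2 fun x hx hx' => ?_, e⟩
  by_cases k : x ∈ J
  · exact disjoint_left.1 hd k hx'
  · exact disjoint_left.1 d ⟨hx, k⟩ hx'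

theorem Sub.inside {D B J Δ P Q : Set E} (h : Sub D B J Δ) (hP : ConBall 2 P Q) (hPD : P ⊆ D)
    (hJ : J ⊆ P) (hd : Disjoint J Q) : Δ ⊆ P ∧ Disjoint Δ Q := by
  obtain ⟨δ, hδ⟩ := exists_sub hP h.ball.isCircleD hJ hd
  rw [← h.uniq δ (hδ.sub.trans hPD) hδ.ball]
  exact ⟨hδ.sub, hδ.disj⟩

theorem Sub.ssub {D B J Δ P Q : Set E} (h : Sub D B J Δ) (hP : ConBall 2 P Q) (hPD : P ⊆ D)
    (hJ : J ⊆ P) (hd : Disjoint J Q) : Δ ⊂ P := by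
  obtain ⟨a, b⟩ := h.inside hP hPD hJ hd
  obtain ⟨x, hx⟩ := (A12.circle_isConnected hP.isCircleD).1
  exact ⟨a, fun k => disjoint_left.1 b (k (hP.1 hx)) hx⟩

theorem Sub.laminar {D B J Δ J' Δ' : Set E} (h : Sub D B J Δ) (h' : Sub D B J' Δ')
    (hd : Disjoint J J') : Disjoint Δ Δ' ∨ Δ ⊂ Δ' ∨ Δ' ⊂ Δ := by
  have key : ∀ {J Δ Z : Set E}, Sub D B J Δ → IsPreconnected Z → Z ⊆ D → Disjoint Z J →
      Z ⊆ Δ ∨ Disjoint Z Δ := fun {J Δ Z} k hZ hZD hZJ => by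
    by_cases hne : (Z ∩ Δ).Nonempty
    · exact Or.inl (subset_of_clopen k.ball.isClosed k.nhds hZ
        (subset_sdiff.2 ⟨hZD, hZJ⟩) hne)
    · exact Or.inr (disjoint_iff_inter_eq_empty.2 (not_nonempty_iff_eq_empty.1 hne))
  have c := A12.circle_isConnected h.ball.isCircleD
  have c' := A12.circle_isConnected h'.ball.isCircleD
  rcases key h' c.2 (h.ball.1.trans h.sub) hd with k | k
  · exact Or.inr (Or.inl (h.ssub h'.ball h'.sub k hd))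
  rcases key h c'.2 (h'.ball.1.trans h'.sub) hd.symm with k' | k'
  · exact Or.inr (Or.inr (h'.ssub h.ball h.sub k' hd.symm))
  rcases key h' h.ball.isConnected.2 h.sub k'.symm with m | m
  · obtain ⟨x, hx⟩ := c.1
    exact (disjoint_left.1 k hx (m (h.ball.1 hx))).elim
  · exact Or.inl m

omit [NormedSpace ℝ E] in
theorem high_of {Z : Set E} {G : E → ℝ} {t : ℝ} (hZ : IsPreconnected Z) (hG : ContinuousOn G Z)
    (hne : ∀ x ∈ Z, G x ≠ t) {a : E} (ha : a ∈ Z) (h : t < G a) : ∀ x ∈ Z, t < G x := by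
  intro x hx
  by_contra k
  obtain ⟨z, hz, e⟩ := hZ.intermediate_value hx ha hG ⟨not_lt.1 k, h.le⟩
  exact hne z hz e

omit [NormedSpace ℝ E] in
theorem low_of {Z : Set E} {G : E → ℝ} {t : ℝ} (hZ : IsPreconnected Z) (hG : ContinuousOn G Z)
    (hne : ∀ x ∈ Z, G x ≠ t) {a : E} (ha : a ∈ Z) (h : G a < t) : ∀ x ∈ Z, G x < t := by
  intro x hx
  by_contra k
  obtain ⟨z, hz, e⟩ := hZ.intermediate_value ha hx hG ⟨h.le, not_lt.1 k⟩
  exact hne z hz e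

/-- replacing the maximal discs by caps -/
theorem replace {D B : Set E} {G : E → ℝ} {t : ℝ} (𝒞 : Finset (Set E))
    (C L Δ J : Set E → Set E) (hD : ConBall 2 D B) (hG : ContinuousOn G D)
    (hl : {x ∈ D | G x = t} = ⋃ c ∈ 𝒞, c)
    (hd : ∀ c ∈ 𝒞, ∀ c' ∈ 𝒞, c ≠ c' → Disjoint (C c) (C c'))
    (hC : ∀ c ∈ 𝒞, ConBall 2 (C c) (L c) ∧ c ⊆ L c ∧ ∀ y ∈ C c, G y ≤ t ∧ (G y = t → y ∈ c))
    (hΔ : ∀ c ∈ 𝒞, ConBall 2 (Δ c) (J c) ∧ Δ c ⊆ D ∧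
      ((c = J c ∧ Disjoint (J c) B) ∨ ∃ p q, IsArc c p q ∧ c ⊆ J c ∧ c ∩ B = {p, q} ∧
        J c ⊆ c ∪ B))
    (hlam : ∀ c ∈ 𝒞, ∀ c' ∈ 𝒞, c ≠ c' → Disjoint (Δ c) (Δ c') ∨ Δ c ⊂ Δ c' ∨ Δ c' ⊂ Δ c)
    {y₀ : E} (hy₀ : y₀ ∈ D) (hy : t < G y₀) (hy' : ∀ c ∈ 𝒞, y₀ ∉ Δ c) :
    ∃ (D' : Set E) (Φ : ConHomeo D D'), D' ⊆ {y ∈ D | t ≤ G y} ∪ ⋃ c ∈ 𝒞, C c ∧
      (∀ x ∈ D, (∀ c ∈ 𝒞, x ∈ Δ c → x ∈ c) → Φ.toFun x = x) ∧
      ∀ c ∈ 𝒞, (∀ c' ∈ 𝒞, ¬ Δ c ⊂ Δ c') → Φ.toFun '' J c = L c ∧ ∀ x ∈ c, Φ.toFun x = x := by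
  obtain ⟨s, hs, h1, h2, h3⟩ := exists_maximal 𝒞 Δ hlam
  obtain ⟨r1, r2, -, r3⟩ := repl s Δ J id hD (fun c hc => hΔ c (hs hc)) h1
  have hcΔ : ∀ c ∈ 𝒞, c ⊆ Δ c := fun c hc => by
    obtain ⟨a, -, b | ⟨_, _, -, b, -⟩⟩ := hΔ c hc
    · exact b.1.subset.trans a.1
    · exact b.trans a.1
  have hhigh : ∀ x ∈ D \ ⋃ c ∈ s, Δ c, t < G x := by
    refine high_of r1 (hG.mono sdiff_subset) (fun x hx e => hx.2 ?_) (a := y₀)
      ⟨hy₀, fun h => ?_⟩ hy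
    · have : x ∈ ⋃ c ∈ 𝒞, c := hl ▸ ⟨hx.1, e⟩
      obtain ⟨c, hc, hxc⟩ := mem_iUnion₂.1 this
      obtain ⟨j, hj, k⟩ := h2 c hc
      exact mem_biUnion hj (k (hcΔ c hc hxc))
    · obtain ⟨c, hc, h⟩ := mem_iUnion₂.1 h
      exact hy' c (hs hc) h
  have hrest : ∀ x ∈ D \ ⋃ c ∈ s, (Δ c \ id c), t ≤ G x := fun x hx =>
    ContinuousWithinAt.closure_le (f := fun _ => t) (r2 hx) continuousWithinAt_const
      ((hG x hx.1).mono sdiff_subset) fun y hy => (hhigh y hy).le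
  obtain ⟨Φ, p1, p2⟩ := r3 C L (fun c hc => ⟨(hC c (hs hc)).1, (hC c (hs hc)).2.1, fun y hy =>
    ((hC c (hs hc)).2.2 y hy.1).2 (le_antisymm ((hC c (hs hc)).2.2 y hy.1).1 (hrest y hy.2))⟩)
    fun c hc c' hc' => hd c (hs hc) c' (hs hc')
  refine ⟨_, Φ, union_subset_union (fun x hx => ⟨hx.1, hrest x hx⟩)
    (biUnion_subset_biUnion_left hs), fun x hx h => p1 x ⟨hx, fun k => ?_⟩,
    fun c hc h => ⟨(p2 c (h3 c hc h)).2, fun x hx => p1 x ⟨(hΔ c hc).2.1 (hcΔ c hc hx), fun k => ?_⟩⟩⟩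
  · obtain ⟨c, hc, k⟩ := mem_iUnion₂.1 k
    exact k.2 (h c (hs hc) k.1)
  · obtain ⟨c', hc', k⟩ := mem_iUnion₂.1 k
    by_cases e : c = c'
    · exact k.2 (e ▸ hx)
    · exact disjoint_left.1 (h1 c (h3 c hc h) c' hc' e) (hcΔ c hc hx) k.1

end CSurg

open CSurg in
theorem csface : CSFACE := by
  classical
  intro E _ _ D B B' G t 𝒞 C L hD hG hl hd hC ⟨y₀, hy₀, hy⟩ hcase
  have hsub : ∀ c ∈ 𝒞, ∀ x ∈ c, x ∈ D ∧ G x = t := fun c hc x hx => by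
    have : x ∈ {x ∈ D | G x = t} := hl ▸ mem_biUnion hc hx
    exact this
  have H : ∀ c, ∃ Δ, c ∈ 𝒞 → IsCircle c → Disjoint c B → Sub D B c Δ := fun c => by
    by_cases h : c ∈ 𝒞 ∧ IsCircle c ∧ Disjoint c B
    · obtain ⟨Δ, hΔ⟩ := exists_sub hD h.2.1 (fun x hx => (hsub c h.1 x hx).1) h.2.2
      exact ⟨Δ, fun _ _ _ => hΔ⟩
    · exact ⟨∅, fun a b c => absurd ⟨a, b, c⟩ h⟩
  choose δ H using H
  rcases hcase with ⟨h1, rfl⟩ | ⟨α, hα, p, q, a1, a2, ⟨y₁, hy₁, hy₁'⟩, h1, rfl⟩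
  · have K : ∀ c ∈ 𝒞, Sub D B' c (δ c) := fun c hc => H c hc (h1 c hc).1 (h1 c hc).2.1
    obtain ⟨D', Φ, d1, d2, -⟩ := replace 𝒞 C L δ id hD hG hl
      (fun c hc c' hc' e => (hd c hc c' hc' e).2) hC
      (fun c hc => ⟨(K c hc).ball, (K c hc).sub, Or.inl ⟨rfl, (h1 c hc).2.1⟩⟩)
      (fun c hc c' hc' e => (K c hc).laminar (K c' hc') (hd c hc c' hc' e).1) (hD.1 hy₀) hy
      fun c hc k => disjoint_left.1 (K c hc).disj k hy₀
    have e : Φ.toFun '' B' = B' := EqOn.image_eq_self fun x hx =>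
      d2 x (hD.1 hx) fun c hc k => (disjoint_left.1 (K c hc).disj k hx).elim
    have := hD.image Φ Subset.rfl
    rw [Φ.image_eq, e] at this
    exact ⟨D', this, d1⟩
  have K : ∀ c ∈ 𝒞, c ≠ α → Sub D B c (δ c) := fun c hc e =>
    H c hc (h1 c hc e).1 (h1 c hc e).2.1
  have hpq : ({p, q} : Set E) ⊆ α ∩ B := a2.ge
  have hlevB : ∀ x ∈ B, G x = t → x ∈ ({p, q} : Set E) := fun x hx e => by
    have : x ∈ ⋃ c ∈ 𝒞, c := hl ▸ ⟨hD.1 hx, e⟩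
    obtain ⟨c, hc, k⟩ := mem_iUnion₂.1 this
    by_cases e : c = α
    · exact a2 ▸ ⟨e ▸ k, hx⟩
    · exact (disjoint_left.1 (h1 c hc e).2.1 k hx).elim
  have hpqt : ∀ x ∈ ({p, q} : Set E), G x = t := fun x hx => (hsub α hα x (hpq hx).1).2
  have main : ∀ B₁ B₂ : Set E, IsArc B₁ p q → IsArc B₂ p q → B₁ ∪ B₂ = B → B₁ ∩ B₂ = {p, q} →
      y₀ ∈ B₂ → ∃ D', ConBall 2 D' ({y ∈ B | t ≤ G y} ∪ (L α \ (α \ {p, q}))) ∧
        D' ⊆ {y ∈ D | t ≤ G y} ∪ ⋃ c ∈ 𝒞, C c := by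
    intro B₁ B₂ b1 b2 b3 b4 hy₂
    have s1 : B₁ ⊆ B := b3 ▸ subset_union_left
    have s2 : B₂ ⊆ B := b3 ▸ subset_union_right
    have high : ∀ x ∈ B₂ \ {p, q}, t < G x := high_of b2.isPreconnected_interior
      (hG.mono (sdiff_subset.trans (s2.trans hD.1))) (fun x hx e => hx.2 (hlevB x (s2 hx.1) e))
      ⟨hy₂, fun k => hy.ne' (hpqt _ k)⟩ hy
    have hn₁ : y₁ ∉ ({p, q} : Set E) := fun k => hy₁'.ne (hpqt _ k)
    have low : ∀ x ∈ B₁ \ {p, q}, G x < t := low_of b1.isPreconnected_interior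
      (hG.mono (sdiff_subset.trans (s1.trans hD.1))) (fun x hx e => hx.2 (hlevB x (s1 hx.1) e))
      ⟨(b3 ▸ hy₁ : y₁ ∈ B₁ ∪ B₂).resolve_right fun k => lt_asymm hy₁' (high _ ⟨k, hn₁⟩), hn₁⟩ hy₁'
    have hB₂ : {y ∈ B | t ≤ G y} = B₂ := by
      apply Subset.antisymm
      · rintro x ⟨hx, hx'⟩
        by_cases k : x ∈ ({p, q} : Set E)
        · exact A12.pair_subset_arc b2 k
        · exact (b3 ▸ hx : x ∈ B₁ ∪ B₂).resolve_left fun m => (low x ⟨m, k⟩).not_ge hx'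
      · intro x hx
        refine ⟨s2 hx, ?_⟩
        by_cases k : x ∈ ({p, q} : Set E)
        · exact (hpqt x k).ge
        · exact (high x ⟨hx, k⟩).le
    have hαD : α ⊆ D := fun x hx => (hsub α hα x hx).1
    obtain ⟨D₁, D₂, x1, x2, x3, x4, x5, x6⟩ := xc hD a1 hαD a2 b1 b2 b3 b4
    have t1 : D₁ ⊆ D := x3 ▸ subset_union_left
    have t2 : D₂ ⊆ D := x3 ▸ subset_union_right
    have lam : ∀ c ∈ 𝒞, c ≠ α → Disjoint (δ c) D₁ ∨ δ c ⊂ D₁ := fun c hc e => by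
      have k := (hd c hc α hα e).1
      have kB := (h1 c hc e).2.1
      rcases side x1.isClosed x2.isClosed (A12.circle_isConnected (h1 c hc e).1).2
        (x3 ▸ fun x hx => (hsub c hc x hx).1) (x4 ▸ k) with m | m
      · exact Or.inr ((K c hc e).ssub x1 t1 m (disjoint_union_right.2 ⟨k, kB.mono_right s1⟩))
      · obtain ⟨u, v⟩ := (K c hc e).inside x2 t2 m (disjoint_union_right.2 ⟨k, kB.mono_right s2⟩)
        exact Or.inl (disjoint_left.2 fun x hx hx' =>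
          disjoint_left.1 v hx (Or.inl (x4 ▸ ⟨hx', u hx⟩)))
    obtain ⟨D', Φ, d1, d2, d3⟩ := replace 𝒞 C L (fun c => if c = α then D₁ else δ c)
      (fun c => if c = α then α ∪ B₁ else c) hD hG hl
      (fun c hc c' hc' e => (hd c hc c' hc' e).2) hC
      (fun c hc => by
        by_cases e : c = α
        · simp only [if_pos e]
          exact ⟨x1, t1, Or.inr ⟨p, q, e ▸ a1, e ▸ subset_union_left, e ▸ a2,
            e ▸ union_subset_union_right _ s1⟩⟩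
        · simp only [if_neg e]
          exact ⟨(K c hc e).ball, (K c hc e).sub, Or.inl ⟨trivial, (h1 c hc e).2.1⟩⟩)
      (fun c hc c' hc' hne => by
        by_cases e : c = α
        · have e' : c' ≠ α := fun e' => hne (e.trans e'.symm)
          rw [if_pos e, if_neg e']
          exact (lam c' hc' e').imp (fun k => k.symm) Or.inr
        · by_cases e' : c' = α
          · rw [if_neg e, if_pos e']
            exact (lam c hc e).imp_right Or.inl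
          · rw [if_neg e, if_neg e']
            exact (K c hc e).laminar (K c' hc' e') (hd c hc c' hc' hne).1)
      (hD.1 hy₀) hy (fun c hc k => by
        by_cases e : c = α
        · rw [if_pos e] at k
          have : y₀ ∈ B₁ ∩ B₂ := ⟨x5 ▸ ⟨k, hy₀⟩, hy₂⟩
          exact hy.ne' (hpqt _ (b4 ▸ this))
        · rw [if_neg e] at k
          exact disjoint_left.1 (K c hc e).disj k hy₀)
    obtain ⟨f1, f2⟩ := d3 α hα fun c hc k => by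
      rw [if_pos rfl] at k
      by_cases e : c = α
      · rw [if_pos e] at k
        exact k.2 Subset.rfl
      · rw [if_neg e] at k
        exact disjoint_left.1 (K c hc e).disj (k.1 (x1.1 (Or.inl a1.left_mem)))
          (hpq (Or.inl rfl)).2
    rw [if_pos rfl] at f1
    have g2 : Φ.toFun '' B₂ = B₂ := EqOn.image_eq_self fun x hx =>
      d2 x (hD.1 (s2 hx)) fun c hc k => by
        by_cases e : c = α
        · rw [if_pos e] at k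
          have : x ∈ B₁ ∩ B₂ := ⟨x5 ▸ ⟨k, s2 hx⟩, hx⟩
          exact e ▸ (hpq (b4 ▸ this)).1
        · rw [if_neg e] at k
          exact (disjoint_left.1 (K c hc e).disj k (s2 hx)).elim
    have g1 : Φ.toFun '' B₁ = L α \ (α \ {p, q}) := by
      have e1 : B₁ = (α ∪ B₁) \ (α \ {p, q}) := by
        apply Subset.antisymm
        · exact fun x hx => ⟨Or.inr hx, fun k => k.2 (a2 ▸ ⟨k.1, s1 hx⟩)⟩
        · rintro x ⟨k | k, k'⟩
          · exact A12.pair_subset_arc b1 (by_contra fun m => k' ⟨k, m⟩)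
          · exact k
      have e2 : Φ.toFun '' (α \ {p, q}) = α \ {p, q} :=
        EqOn.image_eq_self fun x hx => f2 x hx.1
      rw [e1, A12.img_sdiff Φ (x1.1.trans t1) (sdiff_subset.trans hαD), f1, e2]
    have := hD.image Φ Subset.rfl
    rw [Φ.image_eq, ← b3, image_union, g1, g2, union_comm] at this
    exact ⟨D', hB₂ ▸ this, d1⟩
  obtain ⟨B₁, B₂, b1, b2, b3, b4, -⟩ := arcs.2.2.1 hD.isCircleD (hpq (Or.inl rfl)).2
    (hpq (Or.inr rfl)).2 a1.ne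
  rcases (b3 ▸ hy₀ : y₀ ∈ B₁ ∪ B₂) with k | k
  · exact main B₂ B₁ b2 b1 (by rw [union_comm, b3]) (by rw [inter_comm, b4]) k
  · exact main B₁ B₂ b1 b2 b3 b4 k

end P073
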