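import Vale.Agent.P073Z.CS.Cap

/-!
# Cutting at a level, surgery on an edge
-/

open Set Metric Topology Filter

namespace P073

namespace CSurg

variable {g : E3 → ℝ} {c : E3} {t : ℝ} {X Y : Set E3} {y : E3}

theorem g_ray (hh : ∀ x, ∀ r : ℝ, 0 ≤ r → g (r • x) = r * g x) (c x : E3) {s : ℝ} (hs : 0 ≤ s) :
    g (c + s • (x - c) - c) = s * g (x - c) := by
  rw [add_sub_cancel_left, hh _ _ hs]

theorem cone_mono (h : X ⊆ Y) : coneSetAt c X ⊆ coneSetAt c Y :=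
  fun _ ⟨s, hs, x, hx, e⟩ => ⟨s, hs, x, h hx, e⟩

theorem subset_cone : X ⊆ coneSetAt c X :=
  fun x hx => ⟨1, ⟨zero_le_one, le_rfl⟩, x, hx, by simp⟩

theorem apex_mem (h : X.Nonempty) : c ∈ coneSetAt c X :=
  let ⟨x, hx⟩ := h; ⟨0, ⟨le_rfl, zero_le_one⟩, x, hx, by simp⟩

theorem cone_le (hh : ∀ x, ∀ r : ℝ, 0 ≤ r → g (r • x) = r * g x) (ht : 0 < t)
    (hX : ∀ x ∈ X, g (x - c) = t) (hy : y ∈ coneSetAt c X) :
    g (y - c) ≤ t ∧ (t ≤ g (y - c) → y ∈ X) := by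
  obtain ⟨s, hs, x, hx, rfl⟩ := hy
  rw [g_ray hh c x hs.1, hX x hx]
  refine ⟨mul_le_of_le_one_left ht.le hs.2, fun h => ?_⟩
  have : s = 1 := le_antisymm hs.2 (by by_contra h'; push Not at h'; nlinarith)
  simpa [this] using hx

theorem ray_unique (hh : ∀ x, ∀ r : ℝ, 0 ≤ r → g (r • x) = r * g x) (ht : 0 < t) {x x' : E3}
    {s s' : ℝ} (hs : 0 ≤ s) (hs' : 0 ≤ s') (hx : g (x - c) = t) (hx' : g (x' - c) = t)
    (e : c + s • (x - c) = c + s' • (x' - c)) : c + s • (x - c) = c ∨ x = x' := by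
  have h1 := congrArg (fun y => g (y - c)) e
  simp only [g_ray hh c x hs, g_ray hh c x' hs', hx, hx'] at h1
  obtain rfl : s = s' := mul_right_cancel₀ ht.ne' h1
  rcases eq_or_lt_of_le hs with rfl | h0
  · simp
  · exact Or.inr (sub_left_injective (smul_right_injective _ h0.ne' (add_left_cancel e)))

theorem rayBaseAt_level (hh : ∀ x, ∀ r : ℝ, 0 ≤ r → g (r • x) = r * g x) (ht : 0 < t)
    (hc : IsCompact X) (hX : ∀ x ∈ X, g (x - c) = t) : RayBaseAt c X := by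
  refine rayBaseAt_iff.2 ⟨hc, fun h => ?_, fun x hx s hs h => ?_⟩
  · have := hX c h
    rw [sub_self, g_zero hh] at this
    exact ht.ne this
  · have := hX _ h
    rw [g_ray hh c x hs.le, hX x hx] at this
    exact mul_right_cancel₀ ht.ne' (this.trans (one_mul t).symm)

theorem cut_mono (h : X ⊆ Y) : cutAt g c t X ⊆ cutAt g c t Y :=
  union_subset_union (fun _ hy => ⟨h hy.1, hy.2⟩) (cone_mono fun _ hy => ⟨h hy.1, hy.2⟩)

theorem mem_cut_of_high (hy : y ∈ X) (h : t ≤ g (y - c)) : y ∈ cutAt g c t X := Or.inl ⟨hy, h⟩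

theorem cut_high (hh : ∀ x, ∀ r : ℝ, 0 ≤ r → g (r • x) = r * g x) (ht : 0 < t)
    (hy : y ∈ cutAt g c t X) (h : t ≤ g (y - c)) : y ∈ X := by
  rcases hy with hy | hy
  · exact hy.1
  · exact ((cone_le hh ht (fun _ hx => hx.2) hy).2 h).1

theorem cut_low (hy : y ∈ cutAt g c t X) (h : g (y - c) < t) :
    y ∈ coneSetAt c {x ∈ X | g (x - c) = t} :=
  hy.resolve_left fun h' => absurd h'.2 (not_le.2 h)

theorem cut_eq_self (h : ∀ y ∈ X, t < g (y - c)) : cutAt g c t X = X := by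
  apply Subset.antisymm
  · rintro y (hy | ⟨s, -, x, hx, -⟩)
    · exact hy.1
    · exact absurd hx.2 (h x hx.1).ne'
  · exact fun y hy => mem_cut_of_high hy (h y hy).le

theorem cut_eq_empty (h : ∀ y ∈ X, g (y - c) < t) : cutAt g c t X = ∅ := by
  apply eq_empty_of_forall_notMem
  rintro y (hy | ⟨s, -, x, hx, -⟩)
  · exact absurd hy.2 (not_le.2 (h y hy.1))
  · exact absurd hx.2 (h x hx.1).ne

theorem mem_cut_iUnion {ι : Sort*} {Z : ι → Set E3} (hy : y ∈ cutAt g c t (⋃ i, Z i)) :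
    ∃ i, y ∈ cutAt g c t (Z i) := by
  rcases hy with hy | ⟨s, hs, x, hx, e⟩
  · obtain ⟨i, hi⟩ := mem_iUnion.1 hy.1
    exact ⟨i, Or.inl ⟨hi, hy.2⟩⟩
  · obtain ⟨i, hi⟩ := mem_iUnion.1 hx.1
    exact ⟨i, Or.inr ⟨s, hs, x, ⟨hi, hx.2⟩, e⟩⟩

theorem cut_union : cutAt g c t (X ∪ Y) = cutAt g c t X ∪ cutAt g c t Y := by
  refine Subset.antisymm ?_ (union_subset (cut_mono subset_union_left) (cut_mono subset_union_right))
  rintro y (⟨h | h, h'⟩ | ⟨s, hs, x, ⟨h | h, h'⟩, e⟩)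
  · exact Or.inl (Or.inl ⟨h, h'⟩)
  · exact Or.inr (Or.inl ⟨h, h'⟩)
  · exact Or.inl (Or.inr ⟨s, hs, x, ⟨h, h'⟩, e⟩)
  · exact Or.inr (Or.inr ⟨s, hs, x, ⟨h, h'⟩, e⟩)

theorem cone_singleton (c z : E3) : coneSetAt c {z} = segment ℝ c z := by
  rw [segment_eq_image']
  ext y
  constructor
  · rintro ⟨s, hs, x, rfl, rfl⟩
    exact ⟨s, hs, rfl⟩
  · rintro ⟨s, hs, rfl⟩
    exact ⟨s, hs, z, rfl, rfl⟩

theorem ivt {T : Type} [TopologicalSpace T] {Z : Set T} {G : T → ℝ} (hZ : IsPreconnected Z)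
    (hG : Continuous G) {a b : T} (ha : a ∈ Z) (hb : b ∈ Z) (h1 : G a ≤ t) (h2 : t ≤ G b) :
    ∃ z ∈ Z, G z = t :=
  hZ.intermediate_value ha hb hG.continuousOn ⟨h1, h2⟩

theorem edge_vertex {A : Set E3} {p q z : E3} (hg : Continuous g)
    (hh : ∀ x, ∀ r : ℝ, 0 ≤ r → g (r • x) = r * g x) (ht : 0 < t) (hA : IsArc A p q)
    (hq : t < g (q - c)) (hp : g (p - c) < t) (hz : {y ∈ A | g (y - c) = t} = {z}) :
    IsArc (cutAt g c t A) c q := by
  have hG : Continuous fun y => g (y - c) := by fun_prop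
  have hz' : z ∈ {y ∈ A | g (y - c) = t} := hz ▸ rfl
  have huniq : ∀ y ∈ A, g (y - c) = t → y = z := fun y hy h => by
    have : y ∈ {y ∈ A | g (y - c) = t} := ⟨hy, h⟩
    rwa [hz] at this
  obtain ⟨A₁, A₂, h1, h2, h3, h4⟩ := A12.arc_split hA hz'.1
    (fun e => hp.ne (e ▸ hz'.2)) (fun e => hq.ne' (e ▸ hz'.2))
  have s1 : A₁ ⊆ A := h3 ▸ subset_union_left
  have s2 : A₂ ⊆ A := h3 ▸ subset_union_right
  have hhigh : {y ∈ A | t ≤ g (y - c)} = A₂ := by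
    apply Subset.antisymm
    · rintro y ⟨hy, hy'⟩
      by_cases e : y = z
      · exact e ▸ h2.left_mem
      rcases (h3 ▸ hy : y ∈ A₁ ∪ A₂) with h | h
      · obtain ⟨w, hw, hw'⟩ := ivt (A12.arc_sdiff_left h1.symm) hG ⟨h1.left_mem, h1.ne⟩ ⟨h, e⟩
          hp.le hy'
        exact absurd (huniq w (s1 hw.1) hw') hw.2
      · exact h
    · intro y hy
      refine ⟨s2 hy, ?_⟩
      by_cases e : y = z
      · exact e ▸ hz'.2.ge
      by_contra hlt
      obtain ⟨w, hw, hw'⟩ := ivt (A12.arc_sdiff_left h2) hG ⟨hy, e⟩ ⟨h2.right_mem, h2.ne.symm⟩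
        (not_le.1 hlt).le hq.le
      exact absurd (huniq w (s2 hw.1) hw') hw.2
  have hcz : c ≠ z := fun e => by
    have := hz'.2
    rw [← e, sub_self, g_zero hh] at this
    exact ht.ne this
  unfold cutAt
  rw [hhigh, hz, union_comm]
  refine IsArc.trans (cone_singleton c z ▸ isArc_segment hcz) h2 fun y hy => ?_
  refine (cone_le hh ht (fun x hx => hx ▸ hz'.2) hy.1).2 ?_
  have : y ∈ {y ∈ A | t ≤ g (y - c)} := hhigh ▸ hy.2
  exact this.2

end CSurg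

open CSurg in
theorem csedge : CSEDGE := by
  intro A p q c g t hg hh hpos ht hA hq
  refine ⟨fun hp hn => ?_, fun hp ⟨w, hw, hw'⟩ hn => ?_⟩
  · obtain ⟨z, hz⟩ := ncard_eq_one.1 hn
    exact edge_vertex hg hh ht hA hq hp hz
  have hG : Continuous fun y => g (y - c) := by fun_prop
  obtain ⟨A₁, A₂, h1, h2, h3, h4⟩ := A12.arc_split hA hw
    (fun e => lt_asymm hp (e ▸ hw')) (fun e => lt_asymm hq (e ▸ hw'))
  have s1 : A₁ ⊆ A := h3 ▸ subset_union_left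
  have s2 : A₂ ⊆ A := h3 ▸ subset_union_right
  obtain ⟨z₁, m1, l1⟩ := ivt h1.isConnected.2 hG h1.right_mem h1.left_mem hw'.le hp.le
  obtain ⟨z₂, m2, l2⟩ := ivt h2.isConnected.2 hG h2.left_mem h2.right_mem hw'.le hq.le
  have hboth : ∀ y ∈ A₁, y ∈ A₂ → g (y - c) < t := fun y a b => by
    have : y ∈ A₁ ∩ A₂ := ⟨a, b⟩
    rw [h4] at this
    exact this ▸ hw'
  have hne : z₁ ≠ z₂ := fun e => (hboth z₁ m1 (e ▸ m2)).ne l1
  have hset : {y ∈ A | g (y - c) = t} = {z₁, z₂} := by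
    symm
    refine eq_of_subset_of_ncard_le ?_ (by rw [hn, ncard_pair hne])
      (finite_of_ncard_ne_zero (by rw [hn]; norm_num))
    exact insert_subset ⟨s1 m1, l1⟩ (singleton_subset_iff.2 ⟨s2 m2, l2⟩)
  have e1 : {y ∈ A₁ | g (y - c) = t} = {z₁} := by
    refine Subset.antisymm (fun y hy => ?_) (singleton_subset_iff.2 ⟨m1, l1⟩)
    have : y ∈ ({z₁, z₂} : Set E3) := hset ▸ ⟨s1 hy.1, hy.2⟩
    rcases this with h | h
    · exact h
    · exact absurd hy.2 (hboth y hy.1 (h ▸ m2)).ne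
  have e2 : {y ∈ A₂ | g (y - c) = t} = {z₂} := by
    refine Subset.antisymm (fun y hy => ?_) (singleton_subset_iff.2 ⟨m2, l2⟩)
    have : y ∈ ({z₁, z₂} : Set E3) := hset ▸ ⟨s2 hy.1, hy.2⟩
    rcases this with h | h
    · exact absurd hy.2 (hboth y (h ▸ m1) hy.1).ne
    · exact h
  have a1 := edge_vertex hg hh ht h1.symm hp hw' e1
  have a2 := edge_vertex hg hh ht h2 hq hw' e2
  rw [← h3, cut_union]
  refine a1.symm.trans a2 fun y hy => ?_
  rcases le_or_gt t (g (y - c)) with h | h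
  · exact absurd (hboth y (cut_high hh ht hy.1 h) (cut_high hh ht hy.2 h)) (not_lt.2 h)
  · have b1 := cut_low hy.1 h
    have b2 := cut_low hy.2 h
    rw [e1] at b1
    rw [e2] at b2
    obtain ⟨s, hs, x, rfl, rfl⟩ := b1
    obtain ⟨s', hs', x', rfl, e⟩ := b2
    exact (ray_unique hh ht hs.1 hs'.1 l1 l2 e).resolve_right hne

end P073
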