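import Vale.Agent.P073Z.CS.Edge
import Vale.Agent.P073Z.CS.Link
import Vale.Agent.P073Z.RCX2

/-!
# Cone surgery
-/

open Set Metric Topology Filter

namespace P073

namespace CSurg

theorem arc_of_ball {E : Type} [NormedAddCommGroup E] [NormedSpace ℝ E] {A : Set E} {a b : E}
    (h : ConBall 1 A {a, b}) : IsArc A a b := by
  obtain ⟨p, q, h1, h2⟩ := h.one_arc
  rcases pair_eq_pair_iff.1 h2 with ⟨rfl, rfl⟩ | ⟨rfl, rfl⟩
  · exact h1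
  · exact h1.symm

theorem edge_ends {E : Type} [NormedAddCommGroup E] [NormedSpace ℝ E] (K : RCx E) {e : K.ι}
    (he : K.dim e = 1) : ∃ j₁ j₂, j₁ ≠ j₂ ∧ K.dim j₁ = 0 ∧ K.dim j₂ = 0 ∧
      ∀ j, K.cell j ⊆ K.bd e ↔ (j = j₁ ∨ j = j₂) := by
  obtain ⟨p, q, j₁, j₂, -, hb, d1, d2, c1, c2, hne⟩ := K.exists_edge he
  refine ⟨j₁, j₂, hne, d1, d2, fun j => ⟨fun hj => ?_, ?_⟩⟩
  · obtain ⟨a, ha⟩ := K.exists_vertex (i := j) (by have := K.dim_lt hj; omega)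
    have : a ∈ ({p, q} : Set E) := hb ▸ hj (ha ▸ rfl)
    rcases this with rfl | rfl
    · exact Or.inl (K.cell_injective (ha.trans c1.symm))
    · exact Or.inr (K.cell_injective (ha.trans c2.symm))
  · rintro (rfl | rfl)
    · rw [c1, hb]; simp
    · rw [c2, hb]; simp

theorem rbd_ends {E T : Type} [NormedAddCommGroup E] [NormedSpace ℝ E] {K : RCx E}
    {e j₁ j₂ : K.ι} (h : ∀ j, K.cell j ⊆ K.bd e ↔ (j = j₁ ∨ j = j₂)) (R : K.ι → Set T) :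
    K.rbd R e = R j₁ ∪ R j₂ := by
  ext y
  rw [K.mem_rbd]
  constructor
  · rintro ⟨j, hj, hy⟩
    rcases (h j).1 hj with rfl | rfl
    · exact Or.inl hy
    · exact Or.inr hy
  · rintro (hy | hy)
    · exact ⟨j₁, (h _).2 (Or.inl rfl), hy⟩
    · exact ⟨j₂, (h _).2 (Or.inr rfl), hy⟩

theorem rbd_vertex {E T : Type} [NormedAddCommGroup E] [NormedSpace ℝ E] {K : RCx E}
    {v : K.ι} (h : K.dim v = 0) (R : K.ι → Set T) : K.rbd R v = ∅ := by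
  refine eq_empty_of_forall_notMem fun y hy => ?_
  obtain ⟨j, hj, -⟩ := K.mem_rbd.1 hy
  have := K.dim_lt hj
  omega

/-- two level points on the boundary: exactly one cross-cut -/
theorem one_arc {E : Type} [NormedAddCommGroup E] [NormedSpace ℝ E] {D B : Set E} {G : E → ℝ}
    {t : ℝ} {𝒞 : Finset (Set E)} {p q : E} (hBD : B ⊆ D) (hl : {x ∈ D | G x = t} = ⋃ c ∈ 𝒞, c)
    (hd : ∀ c ∈ 𝒞, ∀ c' ∈ 𝒞, c ≠ c' → Disjoint c c')
    (hc : ∀ c ∈ 𝒞, (IsCircle c ∧ Disjoint c B) ∨ ∃ p q, IsArc c p q ∧ c ∩ B = {p, q})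
    (hB : {y ∈ B | G y = t} = {p, q}) (hpq : p ≠ q) :
    ∃ α ∈ 𝒞, IsArc α p q ∧ α ∩ B = {p, q} ∧ ∀ c ∈ 𝒞, c ≠ α → IsCircle c ∧ Disjoint c B := by
  have hlev : ∀ c ∈ 𝒞, c ∩ B ⊆ {p, q} := fun c hc y hy => by
    have : y ∈ {x ∈ D | G x = t} := hl ▸ mem_biUnion hc hy.1
    exact hB ▸ ⟨hy.2, this.2⟩
  have key : ∀ c ∈ 𝒞, ∀ a b, IsArc c a b → c ∩ B = {a, b} → c ∩ B = {p, q} := by
    intro c hc a b h1 h2
    refine eq_of_subset_of_ncard_le (hlev c hc) ?_ (toFinite _)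
    rw [h2, ncard_pair hpq, ncard_pair h1.ne]
  have hp : p ∈ {y ∈ B | G y = t} := hB ▸ Or.inl rfl
  have hp' : p ∈ ⋃ c ∈ 𝒞, c := hl ▸ ⟨hBD hp.1, hp.2⟩
  obtain ⟨α, hα, hpα⟩ := mem_iUnion₂.1 hp'
  rcases hc α hα with h | ⟨a, b, h1, h2⟩
  · exact (disjoint_left.1 h.2 hpα hp.1).elim
  have h3 := key α hα a b h1 h2
  refine ⟨α, hα, arc_of_ball ((h2.symm.trans h3) ▸ h1.conBall), h3, fun c hc' hne => ?_⟩
  refine (hc c hc').resolve_right fun ⟨a', b', k1, k2⟩ => ?_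
  have : p ∈ c ∩ B := key c hc' a' b' k1 k2 ▸ Or.inl rfl
  exact disjoint_left.1 (hd c hc' α hα hne) this.1 hpα

variable {g : E3 → ℝ} {c : E3} {t : ℝ}

/-- the surgery at a good level -/
theorem faces (hS : STAR) (hC : COS) (hB : CONEB) (hF : CSFACE) (Q : RCx E3) (R : Q.ι → Set E3)
    (i₀ : Q.ι) (A : Finset Q.ι) (hQ : IsOpen Q.carrier) (hR : Realiz Q 2 R) (hi₀ : Q.dim i₀ ≤ 1)
    (hg : PLOn g univ) (hh : ∀ x, ∀ r : ℝ, 0 ≤ r → g (r • x) = r * g x)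
    (hp : ∀ x, x ≠ 0 → 0 < g x) (ht : 0 < t) (hA : ∀ φ ∈ A, Q.dim φ = 2)
    (hA' : ∀ φ, Q.dim φ = 2 → Q.cell i₀ ⊆ Q.cell φ → φ ∈ A)
    (hfar : ∀ j, Q.dim j ≤ 1 → ¬ Q.cell i₀ ⊆ Q.cell j → ∀ y ∈ R j, t < g (y - c))
    (hlow : ∃ y ∈ R i₀, g (y - c) < t)
    (hcard : ∀ e, Q.dim e = 1 → Q.cell i₀ ⊆ Q.cell e →
      {y ∈ R e | g (y - c) = t}.ncard = Q.dim i₀ + 1)
    (𝒞 : Q.ι → Finset (Set E3))
    (h𝒞 : ∀ φ ∈ A, {x ∈ R φ | g (x - c) = t} = ⋃ J ∈ 𝒞 φ, J ∧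
      (∀ J ∈ 𝒞 φ, ∀ J' ∈ 𝒞 φ, J ≠ J' → Disjoint J J') ∧
      ∀ J ∈ 𝒞 φ, (IsCircle J ∧ Disjoint J (Q.rbd R φ)) ∨
        ∃ p q, IsArc J p q ∧ J ∩ Q.rbd R φ = {p, q}) :
    ∃ (D W : Q.ι → Set E3) (Γ : Set E3), Γ.Nonempty ∧ (∀ y ∈ Γ, g (y - c) = t) ∧
      (∀ e, Q.dim e = 1 → Q.cell i₀ ⊆ Q.cell e → {y ∈ R e | g (y - c) = t} ⊆ Γ) ∧
      (∀ φ ∈ A, ConBall 2 (D φ) (cutAt g c t (Q.rbd R φ)) ∧ Disjoint (W φ) (coneSetAt c Γ) ∧
        ∀ y ∈ D φ, (t ≤ g (y - c) → y ∈ R φ) ∧ (g (y - c) < t → y ∈ W φ ∨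
          (Q.cell i₀ ⊆ Q.cell φ ∧ y ∈ coneSetAt c (R φ ∩ Γ)))) ∧
      ∀ φ ∈ A, ∀ φ' ∈ A, φ ≠ φ' → Disjoint (W φ) (W φ') := by
  classical
  have hgc : Continuous g := continuousOn_univ.1 hg.1
  have hG : Continuous fun y => g (y - c) := by fun_prop
  have lev := cslev Q R i₀ (G := fun y => g (y - c)) hR hi₀ hfar hlow hcard
  have hsub : ∀ φ ∈ A, ∀ J ∈ 𝒞 φ, ∀ y ∈ J, y ∈ R φ ∧ g (y - c) = t := fun φ hφ J hJ y hy => by
    have : y ∈ {x ∈ R φ | g (x - c) = t} := (h𝒞 φ hφ).1 ▸ mem_biUnion hJ hy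
    exact this
  have H : ∀ φ, ∃ (α : Set E3) (p q : E3), Q.dim φ = 2 → Q.cell i₀ ⊆ Q.cell φ →
      α ∈ 𝒞 φ ∧ IsArc α p q ∧ α ∩ Q.rbd R φ = {p, q} ∧
      {y ∈ Q.rbd R φ | g (y - c) = t} = {p, q} ∧
      ∀ J ∈ 𝒞 φ, J ≠ α → IsCircle J ∧ Disjoint J (Q.rbd R φ) := by
    intro φ
    by_cases h : Q.dim φ = 2 ∧ Q.cell i₀ ⊆ Q.cell φ
    · obtain ⟨-, p, q, hpq, e⟩ := (lev φ h.1).2.2 h.2
      obtain ⟨a, b, d⟩ := h𝒞 φ (hA' φ h.1 h.2)
      obtain ⟨α, h1, h2, h3, h4⟩ := one_arc (hR.rbd_subset h.1.le) a b d e hpq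
      exact ⟨α, p, q, fun _ _ => ⟨h1, h2, h3, e, h4⟩⟩
    · exact ⟨∅, 0, 0, fun a b => absurd ⟨a, b⟩ h⟩
  choose α p q H using H
  have hZ : ∀ φ, Q.dim φ = 2 → Q.cell i₀ ⊆ Q.cell φ → ∀ e, Q.dim e = 1 → Q.cell e ⊆ Q.cell φ →
      {y ∈ R e | g (y - c) = t} ⊆ α φ := by
    intro φ h1 h2 e he hs y hy
    obtain ⟨-, -, a, b, -⟩ := H φ h1 h2
    have : y ∈ α φ ∩ Q.rbd R φ := by
      rw [a, ← b]
      exact ⟨Q.subset_rbd R (Q.subset_bd_of_dim_lt hs (by omega)) hy.1, hy.2⟩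
    exact this.1
  obtain ⟨hΓ, hface⟩ := csgam Q i₀ α (fun e => {y ∈ R e | g (y - c) = t}) hQ hi₀
    (fun φ h1 h2 => ⟨(H φ h1 h2).2.1.isConnected.2, fun e he _ hs => hZ φ h1 h2 e he hs⟩)
    (fun e he hs => nonempty_of_ncard_ne_zero (by rw [hcard e he hs]; omega))
  set Γ := ⋃ φ, ⋃ (_ : Q.dim φ = 2 ∧ Q.cell i₀ ⊆ Q.cell φ), α φ with hΓdef
  have hαΓ : ∀ φ, Q.dim φ = 2 → Q.cell i₀ ⊆ Q.cell φ → α φ ⊆ Γ := fun φ h1 h2 y hy =>
    mem_iUnion₂.2 ⟨φ, ⟨h1, h2⟩, hy⟩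
  have hΓt : ∀ y ∈ Γ, g (y - c) = t := fun y hy => by
    obtain ⟨φ, h, hy⟩ := mem_iUnion₂.1 hy
    exact (hsub φ (hA' φ h.1 h.2) _ (H φ h.1 h.2).1 y hy).2
  let 𝒥 : Q.ι → Finset (Set E3) := fun φ =>
    (𝒞 φ).filter fun J => IsCircle J ∧ Disjoint J (Q.rbd R φ)
  have h𝒥 : ∀ φ J, J ∈ 𝒥 φ ↔ J ∈ 𝒞 φ ∧ IsCircle J ∧ Disjoint J (Q.rbd R φ) := fun φ J =>
    Finset.mem_filter
  have hopen : ∀ φ ∈ A, ∀ J ∈ 𝒥 φ, J ⊆ R φ \ Q.rbd R φ := fun φ hφ J hJ y hy =>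
    ⟨(hsub φ hφ J ((h𝒥 φ J).1 hJ).1 y hy).1, disjoint_left.1 ((h𝒥 φ J).1 hJ).2.2 hy⟩
  have hother : ∀ φ ∈ A, ∀ φ' ∈ A, φ ≠ φ' → ∀ J ∈ 𝒥 φ, Disjoint J (R φ') := by
    intro φ hφ φ' hφ' hne J hJ
    refine disjoint_left.2 fun y hy hy' => (hopen φ hφ J hJ hy).2 ?_
    exact hR.inter_subset_rbd (hA φ hφ).le hne (by rw [hA φ hφ, hA φ' hφ'])
      ⟨(hopen φ hφ J hJ hy).1, hy'⟩
  have hαJ : ∀ φ, Q.dim φ = 2 → Q.cell i₀ ⊆ Q.cell φ → α φ ∉ 𝒥 φ := fun φ h1 h2 h => by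
    have : p φ ∈ α φ ∩ Q.rbd R φ := (H φ h1 h2).2.2.1 ▸ Or.inl rfl
    exact disjoint_left.1 ((h𝒥 φ _).1 h).2.2 this.1 this.2
  obtain ⟨C, hC1, hC2⟩ := cscap_of hS hC (A.biUnion 𝒥) id (c := c) (Γ := Γ) hg hh hp ht
    (fun J hJ => by
      obtain ⟨φ, hφ, hJ⟩ := Finset.mem_biUnion.1 hJ
      obtain ⟨a, b, d⟩ := (h𝒥 φ J).1 hJ
      refine ⟨b, fun y hy => (hsub φ hφ J a y hy).2, disjoint_left.2 fun y hy hy' => ?_⟩
      obtain ⟨φ', h, hy'⟩ := mem_iUnion₂.1 hy'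
      by_cases e : φ = φ'
      · subst e
        exact disjoint_left.1 ((h𝒞 φ hφ).2.1 J a _ (H φ h.1 h.2).1
          fun e => hαJ φ h.1 h.2 (e ▸ hJ)) hy hy'
      · exact disjoint_left.1 (hother φ hφ φ' (hA' φ' h.1 h.2) e J hJ) hy
          (hsub φ' (hA' φ' h.1 h.2) _ (H φ' h.1 h.2).1 y hy').1)
    (fun J hJ J' hJ' hne => by
      obtain ⟨φ, hφ, hJ⟩ := Finset.mem_biUnion.1 hJ
      obtain ⟨φ', hφ', hJ'⟩ := Finset.mem_biUnion.1 hJ'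
      by_cases e : φ = φ'
      · subst e
        exact (h𝒞 φ hφ).2.1 J ((h𝒥 φ J).1 hJ).1 J' ((h𝒥 φ J').1 hJ').1 hne
      · exact (hother φ hφ φ' hφ' e J hJ).mono_right
          ((hopen φ' hφ' J' hJ').trans sdiff_subset))
    hΓ hΓt
  have hm : ∀ φ ∈ A, ∀ J ∈ 𝒥 φ, J ∈ A.biUnion 𝒥 := fun φ hφ J hJ =>
    Finset.mem_biUnion.2 ⟨φ, hφ, hJ⟩
  have K : ∀ φ, ∃ D, φ ∈ A → ConBall 2 D (cutAt g c t (Q.rbd R φ)) ∧
      D ⊆ {y ∈ R φ | t ≤ g (y - c)} ∪ (⋃ J ∈ 𝒥 φ, C J) ∪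
        {y | Q.cell i₀ ⊆ Q.cell φ ∧ y ∈ coneSetAt c (α φ)} := by
    intro φ
    by_cases hφ : φ ∈ A
    swap
    · exact ⟨∅, fun h => absurd h hφ⟩
    have hd := hA φ hφ
    have hball : ConBall 2 (R φ) (Q.rbd R φ) := hd ▸ hR.ball φ hd.le
    obtain ⟨c1, c2, c3⟩ := h𝒞 φ hφ
    obtain ⟨l1, l2, l3⟩ := lev φ hd
    by_cases hi : Q.cell i₀ ⊆ Q.cell φ
    · obtain ⟨a1, a2, a3, a4, a5⟩ := H φ hd hi
      have hJ : ∀ J ∈ 𝒞 φ, J ≠ α φ → J ∈ 𝒥 φ := fun J hJ hne => (h𝒥 φ J).2 ⟨hJ, a5 J hJ hne⟩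
      have hαt : ∀ y ∈ α φ, g (y - c) = t := fun y hy => (hsub φ hφ _ a1 y hy).2
      have hdis : ∀ J ∈ 𝒞 φ, J ≠ α φ → Disjoint (C J) (coneSetAt c (α φ)) := fun J h hne =>
        (hC1 J (hm φ hφ J (hJ J h hne))).2.2.mono_right (cone_mono (hαΓ φ hd hi))
      obtain ⟨D, d1, d2⟩ := hF (B' := cutAt g c t (Q.rbd R φ)) (G := fun y => g (y - c)) (𝒞 φ)
        (fun J => if J = α φ then coneSetAt c (α φ) else C J)
        (fun J => if J = α φ then α φ ∪ coneSetAt c {p φ, q φ} else J) hball hG.continuousOn c1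
        (fun J h J' h' hne => ⟨c2 J h J' h' hne, by
          by_cases e : J = α φ
          · have e' : J' ≠ α φ := fun e' => hne (e.trans e'.symm)
            rw [if_pos e, if_neg e']
            exact (hdis J' h' e').symm
          · by_cases e' : J' = α φ
            · rw [if_neg e, if_pos e']
              exact hdis J h e
            · rw [if_neg e, if_neg e']
              exact hC2 J (hm φ hφ J (hJ J h e)) J' (hm φ hφ J' (hJ J' h' e')) hne⟩)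
        (fun J h => by
          by_cases e : J = α φ
          · simp only [if_pos e]
            refine ⟨(hB (n := 0) (B := {p φ, q φ})
              (rayBaseAt_level hh ht a2.isCompact hαt)).2.1 a2.conBall,
              e ▸ subset_union_left, fun y hy => ?_⟩
            exact ⟨(cone_le hh ht hαt hy).1, fun h => e ▸ (cone_le hh ht hαt hy).2 h.ge⟩
          · simp only [if_neg e]
            obtain ⟨u, v, -⟩ := hC1 J (hm φ hφ J (hJ J h e))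
            exact ⟨u, Subset.rfl, v⟩)
        l1 (Or.inr ⟨α φ, a1, p φ, q φ, a2, a3, (l3 hi).1,
          fun J h e => ⟨(a5 J h e).1, (a5 J h e).2, if_neg e⟩, by
            simp only [if_true]
            unfold cutAt
            rw [a4]
            congr 1
            apply Subset.antisymm
            · refine fun y hy => ⟨Or.inr hy, fun h => h.2 ?_⟩
              exact (cone_le hh ht (fun x hx => hαt x (A12.pair_subset_arc a2 hx)) hy).2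
                (hαt y h.1).ge
            · rintro y ⟨h | h, h'⟩
              · exact subset_cone (by_contra fun k => h' ⟨h, k⟩)
              · exact h⟩)
      refine ⟨D, fun _ => ⟨d1, fun y hy => ?_⟩⟩
      rcases d2 hy with h | h
      · exact Or.inl (Or.inl h)
      · obtain ⟨J, hJ', h⟩ := mem_iUnion₂.1 h
        by_cases e : J = α φ
        · rw [if_pos e] at h
          exact Or.inr ⟨hi, h⟩
        · rw [if_neg e] at h
          exact Or.inl (Or.inr (mem_biUnion (hJ J hJ' e) h))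
    · have hJ : ∀ J ∈ 𝒞 φ, J ∈ 𝒥 φ := fun J h => (h𝒥 φ J).2 ⟨h, (c3 J h).resolve_right
        fun ⟨a, b, _, k⟩ => by
          have : a ∈ J ∩ Q.rbd R φ := k ▸ Or.inl rfl
          exact (l2 hi a this.2).ne' (hsub φ hφ J h a this.1).2⟩
      obtain ⟨D, d1, d2⟩ := hF (B' := cutAt g c t (Q.rbd R φ)) (G := fun y => g (y - c)) (𝒞 φ)
        C id hball hG.continuousOn c1
        (fun J h J' h' hne => ⟨c2 J h J' h' hne,
          hC2 J (hm φ hφ J (hJ J h)) J' (hm φ hφ J' (hJ J' h')) hne⟩)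
        (fun J h => ⟨(hC1 J (hm φ hφ J (hJ J h))).1, Subset.rfl,
          (hC1 J (hm φ hφ J (hJ J h))).2.1⟩)
        l1 (Or.inl ⟨fun J h => ⟨((h𝒥 φ J).1 (hJ J h)).2.1, ((h𝒥 φ J).1 (hJ J h)).2.2, rfl⟩,
          cut_eq_self (l2 hi)⟩)
      refine ⟨D, fun _ => ⟨d1, fun y hy => Or.inl ?_⟩⟩
      rcases d2 hy with h | h
      · exact Or.inl h
      · obtain ⟨J, hJ', h⟩ := mem_iUnion₂.1 h
        exact Or.inr (mem_biUnion (hJ J hJ') h)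
  choose D K using K
  refine ⟨D, fun φ => ⋃ J ∈ 𝒥 φ, C J, Γ, hΓ.1, hΓt, fun e he hs => ?_,
    fun φ hφ => ⟨(K φ hφ).1, ?_, fun y hy => ?_⟩, fun φ hφ φ' hφ' hne => ?_⟩
  · obtain ⟨φ, h1, h2⟩ := hface e he.le
    exact (hZ φ h1 (hs.trans h2) e he h2).trans (hαΓ φ h1 (hs.trans h2))
  · exact disjoint_iUnion₂_left.2 fun J hJ => (hC1 J (hm φ hφ J hJ)).2.2
  · rcases (K φ hφ).2 hy with (h | h) | ⟨hi, h⟩
    · exact ⟨fun _ => h.1, fun h' => absurd h.2 (not_le.2 h')⟩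
    · refine ⟨fun h' => ?_, fun _ => Or.inl h⟩
      obtain ⟨J, hJ, h⟩ := mem_iUnion₂.1 h
      obtain ⟨u, v⟩ := (hC1 J (hm φ hφ J hJ)).2.1 y h
      exact (hopen φ hφ J hJ (v (le_antisymm u h'))).1
    · have hs := hsub φ hφ _ (H φ (hA φ hφ) hi).1
      exact ⟨fun h' => (hs y ((cone_le hh ht (fun x hx => (hs x hx).2) h).2 h')).1,
        fun _ => Or.inr ⟨hi, cone_mono
          (subset_inter (fun x hx => (hs x hx).1) (hαΓ φ (hA φ hφ) hi)) h⟩⟩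
  · refine disjoint_iUnion₂_left.2 fun J hJ => disjoint_iUnion₂_right.2 fun J' hJ' => ?_
    refine hC2 J (hm φ hφ J hJ) J' (hm φ' hφ' J' hJ') fun e => ?_
    obtain ⟨y, hy⟩ := (A12.circle_isConnected ((h𝒥 φ J).1 hJ).2.1).1
    exact disjoint_left.1 (hother φ hφ φ' hφ' hne J hJ) hy (hopen φ' hφ' J' hJ' (e ▸ hy)).1

end CSurg

open CSurg in
theorem cs_of_face (hS : STAR) (hC : COS) (hB : CONEB) (hP : P4) (hF : CSFACE) : CS := by
  classical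
  intro Q R i₀ g c t₁ t₂ hQ hR hi₀ hg hh hp ht₁ ht₁₂ hfin hfar ⟨y₀, hy₀, hy₀'⟩ hcard
  have hgc : Continuous g := continuousOn_univ.1 hg.1
  have hG : Continuous fun y => g (y - c) := by fun_prop
  have hGpl : PLOn (fun y => g (y - c)) univ := A2.pl_comp_univ hg
    (A2.pl_sub (A2.pl_id A2.conicalSet_univ) (A2.pl_const c A2.conicalSet_univ))
  have hAfin : {φ | Q.dim φ = 2 ∧ ∃ y ∈ R φ, g (y - c) < t₂}.Finite :=
    hfin.subset fun φ ⟨h, y, hy, hy'⟩ => ⟨h.le, y, hy, hy'.le⟩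
  set A := hAfin.toFinset with hAdef
  have hA : ∀ φ, φ ∈ A ↔ Q.dim φ = 2 ∧ ∃ y ∈ R φ, g (y - c) < t₂ := fun φ => hAfin.mem_toFinset
  have H : ∀ φ, ∃ T : Set ℝ, T.Finite ∧ ∀ t, t ∉ T → ∃ 𝒞 : Finset (Set E3), φ ∈ A →
      {x ∈ R φ | g (x - c) = t} = ⋃ J ∈ 𝒞, J ∧
      (∀ J ∈ 𝒞, ∀ J' ∈ 𝒞, J ≠ J' → Disjoint J J') ∧
      ∀ J ∈ 𝒞, (IsCircle J ∧ Disjoint J (Q.rbd R φ)) ∨
        ∃ p q, IsArc J p q ∧ J ∩ Q.rbd R φ = {p, q} := by
    intro φ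
    by_cases hφ : φ ∈ A
    · have hd := ((hA φ).1 hφ).1
      have hball : ConBall 2 (R φ) (Q.rbd R φ) := hd ▸ hR.ball φ hd.le
      obtain ⟨T, h1, h2⟩ := hP hball (A2.pl_mono hGpl hball.conicalSet (subset_univ _))
      exact ⟨T, h1, fun t ht => let ⟨𝒞, h⟩ := (h2 t ht).1; ⟨𝒞, fun _ => h⟩⟩
    · exact ⟨∅, finite_empty, fun _ _ => ⟨∅, fun h => absurd h hφ⟩⟩
  choose T hT H using H
  obtain ⟨t, ht, htT⟩ := (Ioo_infinite ht₁₂).exists_notMem_finite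
    (A.finite_toSet.biUnion fun φ _ => hT φ)
  have H' : ∀ φ, ∃ 𝒞 : Finset (Set E3), φ ∈ A →
      {x ∈ R φ | g (x - c) = t} = ⋃ J ∈ 𝒞, J ∧
      (∀ J ∈ 𝒞, ∀ J' ∈ 𝒞, J ≠ J' → Disjoint J J') ∧
      ∀ J ∈ 𝒞, (IsCircle J ∧ Disjoint J (Q.rbd R φ)) ∨
        ∃ p q, IsArc J p q ∧ J ∩ Q.rbd R φ = {p, q} := by
    intro φ
    by_cases hφ : φ ∈ A
    · exact H φ t fun h => htT (mem_biUnion hφ h)
    · exact ⟨∅, fun h => absurd h hφ⟩
  choose 𝒞 h𝒞 using H'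
  have ht0 : 0 < t := ht₁.trans ht.1
  have hlow : g (y₀ - c) < t := hy₀'.trans_lt ht.1
  have hfar' : ∀ j, Q.dim j ≤ 1 → ¬ Q.cell i₀ ⊆ Q.cell j → ∀ y ∈ R j, t < g (y - c) :=
    fun j h1 h2 y hy => ht.2.trans_le (hfar j h1 h2 y hy)
  have hcard' : ∀ e, Q.dim e = 1 → Q.cell i₀ ⊆ Q.cell e →
      {y ∈ R e | g (y - c) = t}.ncard = Q.dim i₀ + 1 := fun e h1 h2 => hcard e h1 h2 t ht
  obtain ⟨D, W, Γ, hΓ, hΓt, hΓe, hD, hW⟩ := faces hS hC hB hF Q R i₀ A hQ hR hi₀ hg hh hp ht0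
    (fun φ h => ((hA φ).1 h).1)
    (fun φ h1 h2 => (hA φ).2 ⟨h1, y₀, hR.mono h1.le h2 hy₀, hlow.trans ht.2⟩)
    hfar' ⟨y₀, hy₀, hlow⟩ hcard' 𝒞 h𝒞
  have hv : Q.dim i₀ = 0 → R i₀ = {y₀} := fun h => by
    obtain ⟨⟨a, ha⟩, -⟩ := ConBall.zero_eq (h ▸ hR.ball i₀ (by omega))
    rw [ha] at hy₀ ⊢
    rw [hy₀]
  let R' : Q.ι → Set E3 := fun j => if Q.dim j ≤ 1 then
    (if j = i₀ ∧ Q.dim i₀ = 0 then {c} else cutAt g c t (R j)) else if j ∈ A then D j else R j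
  have e0 : Q.dim i₀ = 0 → R' i₀ = {c} := fun h => by
    simp only [R', if_pos hi₀, h, and_self, if_true]
  have e1 : ∀ j, Q.dim j ≤ 1 → ¬ (j = i₀ ∧ Q.dim i₀ = 0) → R' j = cutAt g c t (R j) :=
    fun j h1 h2 => by simp only [R', if_pos h1, if_neg h2]
  have e2 : ∀ j ∈ A, R' j = D j := fun j h => by
    have : ¬ Q.dim j ≤ 1 := by rw [((hA j).1 h).1]; omega
    simp only [R', if_neg this, if_pos h]
  have e3 : ∀ j, ¬ Q.dim j ≤ 1 → j ∉ A → R' j = R j := fun j h1 h2 => by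
    simp only [R', if_neg h1, if_neg h2]
  have e4 : ∀ j, Q.dim j ≤ 1 → ¬ Q.cell i₀ ⊆ Q.cell j → R' j = R j := fun j h1 h2 => by
    rw [e1 j h1 fun h => h2 (h.1 ▸ Subset.rfl), cut_eq_self (hfar' j h1 h2)]
  have e5 : ∀ j, Q.dim j ≤ 1 → cutAt g c t (R j) ⊆ R' j := fun j h => by
    by_cases h' : j = i₀ ∧ Q.dim i₀ = 0
    · rw [h'.1, hv h'.2, cut_eq_empty fun y hy => hy ▸ hlow]
      exact empty_subset _
    · rw [e1 j h h']
  have hfix : ∀ i, Q.dim i ≤ 2 → (∀ y ∈ R i, t₂ ≤ g (y - c)) → R' i = R i := fun i _ h => by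
    by_cases h1 : Q.dim i ≤ 1
    · rw [e1 i h1 fun h' => (hlow.trans ht.2).not_ge (h y₀ (h'.1 ▸ hy₀)),
        cut_eq_self fun y hy => ht.2.trans_le (h y hy)]
    · exact e3 i h1 fun h' => let ⟨_, y, hy, hy'⟩ := (hA i).1 h'; hy'.not_ge (h y hy)
  have hc0 : g (c - c) < t := by rw [sub_self, g_zero hh]; exact ht0
  have hci : c ∈ R' i₀ := by
    by_cases h : Q.dim i₀ = 0
    · rw [e0 h]; rfl
    · exact e5 i₀ hi₀ (Or.inr (apex_mem (nonempty_of_ncard_ne_zero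
        (by rw [hcard' i₀ (by omega) Subset.rfl]; omega))))
  have hbd : ∀ i, Q.dim i ≤ 2 → cutAt g c t (Q.rbd R i) ⊆ Q.rbd R' i := fun i hi y hy => by
    obtain ⟨j, hy⟩ := mem_cut_iUnion hy
    obtain ⟨hj, hy⟩ := mem_cut_iUnion hy
    exact Q.subset_rbd R' hj (e5 j (by have := Q.dim_lt hj; omega) hy)
  have hpt : ∀ i, Q.dim i ≤ 2 → ∀ y ∈ R' i, (t ≤ g (y - c) → y ∈ R i) ∧
      (g (y - c) < t → (i ∈ A ∧ y ∈ W i) ∨
        (Q.cell i₀ ⊆ Q.cell i ∧ (y = c ∨ y ∈ coneSetAt c (R i ∩ Γ)))) := by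
    intro i hi y hy
    by_cases h1 : Q.dim i ≤ 1
    · by_cases h2 : i = i₀ ∧ Q.dim i₀ = 0
      · rw [h2.1, e0 h2.2] at hy
        rw [hy, h2.1]
        exact ⟨fun h => absurd h hc0.not_ge, fun _ => Or.inr ⟨Subset.rfl, Or.inl rfl⟩⟩
      · by_cases h3 : Q.cell i₀ ⊆ Q.cell i
        · rw [e1 i h1 h2] at hy
          have hd : Q.dim i = 1 := by
            by_contra hd
            have := Q.dim_le h3
            exact h2 ⟨(Q.eq_of_subset_of_dim_le h3 (by omega)).symm, by omega⟩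
          exact ⟨cut_high hh ht0 hy, fun h => Or.inr ⟨h3, Or.inr (cone_mono
            (subset_inter (fun _ hx => hx.1) (hΓe i hd h3)) (cut_low hy h))⟩⟩
        · rw [e4 i h1 h3] at hy
          exact ⟨fun _ => hy, fun h => absurd h (hfar' i h1 h3 y hy).not_gt⟩
    · by_cases h2 : i ∈ A
      · rw [e2 i h2] at hy
        obtain ⟨a, b⟩ := (hD i h2).2.2 y hy
        exact ⟨a, fun h => (b h).imp (fun k => ⟨h2, k⟩) fun k => ⟨k.1, Or.inr k.2⟩⟩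
      · rw [e3 i h1 h2] at hy
        exact ⟨fun _ => hy, fun h => absurd ((hA i).2 ⟨by omega, y, hy, h.trans ht.2⟩) h2⟩
  have hcone : ∀ i y, (y = c ∨ y ∈ coneSetAt c (R i ∩ Γ)) → y ∈ coneSetAt c Γ := by
    rintro i y (rfl | h)
    · exact apex_mem hΓ
    · exact cone_mono inter_subset_right h
  have hapex : ∀ i, Q.cell i₀ ⊆ Q.cell i → c ∉ Q.rbd R' i → i = i₀ := fun i h h' => by
    by_contra hne
    exact h' (Q.subset_rbd R' (Q.subset_bd_of_ne h (Ne.symm hne)) hci)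
  refine ⟨t, ht, R', ⟨fun i hi => ?_, fun i j hi hj hne => ?_, fun y hy => ?_⟩,
    fun i hi => ⟨fun y hy => ?_, hfix i hi⟩, e0,
    fun e he _ => e1 e he.le fun h => by rw [← h.1] at h; omega⟩
  · have hcase : Q.dim i = 0 ∨ Q.dim i = 1 ∨ Q.dim i = 2 := by omega
    rcases hcase with h | h | h
    · rw [h, rbd_vertex h]
      by_cases h2 : i = i₀
      · rw [h2, e0 (h2 ▸ h)]
        exact conBall_zero c
      · rw [e4 i (by omega) fun h3 => h2 (Q.eq_of_subset_of_dim_le h3 (by omega)).symm]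
        have := hR.ball i hi
        rwa [h, rbd_vertex h] at this
    · obtain ⟨j₁, j₂, hne, d1, d2, hj⟩ := edge_ends Q h
      have main : ∀ j₁ j₂, j₁ ≠ j₂ → Q.dim j₁ = 0 → Q.dim j₂ = 0 →
          (∀ j, Q.cell j ⊆ Q.bd i ↔ (j = j₁ ∨ j = j₂)) → j₂ ≠ i₀ →
          ConBall 1 (R' i) (Q.rbd R' i) := by
        intro j₁ j₂ hne d1 d2 hj hn
        have hball : ConBall 1 (R i) (Q.rbd R i) := h ▸ hR.ball i hi
        obtain ⟨⟨a, ha⟩, -⟩ := ConBall.zero_eq (d1 ▸ hR.ball j₁ (by omega))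
        obtain ⟨⟨b, hb⟩, -⟩ := ConBall.zero_eq (d2 ▸ hR.ball j₂ (by omega))
        have n2 : ¬ Q.cell i₀ ⊆ Q.cell j₂ := fun k =>
          hn (Q.eq_of_subset_of_dim_le k (by omega)).symm
        have hb' : t < g (b - c) := hfar' j₂ (by omega) n2 b (hb ▸ rfl)
        rw [rbd_ends hj, ha, hb, singleton_union] at hball
        have harc := arc_of_ball hball
        have hE := csedge hgc hh hp ht0 harc hb'
        rw [rbd_ends hj, e4 j₂ (by omega) n2, hb]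
        by_cases h1 : j₁ = i₀
        · have s1 : Q.cell i₀ ⊆ Q.cell i := h1 ▸ ((hj j₁).2 (Or.inl rfl)).trans (Q.bd_subset i)
          have d0 : Q.dim i₀ = 0 := h1 ▸ d1
          have : a = y₀ := singleton_injective (ha.symm.trans (h1 ▸ hv d0))
          rw [h1, e0 d0, e1 i h.le fun k => by rw [← k.1] at d0; omega, singleton_union]
          exact (hE.1 (this ▸ hlow) (by rw [hcard' i h s1, d0])).conBall
        · have n1 : ¬ Q.cell i₀ ⊆ Q.cell j₁ := fun k =>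
            h1 (Q.eq_of_subset_of_dim_le k (by omega)).symm
          rw [e4 j₁ (by omega) n1, ha, singleton_union]
          by_cases h2 : Q.cell i₀ ⊆ Q.cell i
          · have e : i₀ = i := by
              rcases Q.eq_or_subset_bd h2 with k | k
              · exact k
              · rcases (hj i₀).1 k with k | k
                · exact absurd k.symm h1
                · exact absurd k.symm hn
            rw [e1 i h.le fun k => by rw [e] at k; omega]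
            exact (hE.2 (hfar' j₁ (by omega) n1 a (ha ▸ rfl)) ⟨y₀, e ▸ hy₀, hlow⟩
              (by rw [hcard' i h h2, e, h])).conBall
          · rw [e4 i h.le h2]
            exact hball
      rw [h]
      by_cases hn : j₂ = i₀
      · exact main j₂ j₁ hne.symm d2 d1 (fun j => (hj j).trans or_comm) (hn ▸ hne)
      · exact main j₁ j₂ hne d1 d2 hj hn
    · have lev := cslev Q R i₀ (G := fun y => g (y - c)) hR hi₀ hfar' ⟨y₀, hy₀, hlow⟩ hcard' i h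
      have hb : Q.rbd R' i = cutAt g c t (Q.rbd R i) := by
        refine Subset.antisymm (fun y hy => ?_) (hbd i hi)
        obtain ⟨j, hj, hy⟩ := Q.mem_rbd.1 hy
        have hd : Q.dim j ≤ 1 := by have := Q.dim_lt hj; omega
        by_cases h2 : j = i₀ ∧ Q.dim i₀ = 0
        · rw [h2.1, e0 h2.2] at hy
          obtain ⟨-, p, q, -, e⟩ := lev.2.2 (h2.1 ▸ hj.trans (Q.bd_subset i))
          rw [hy]
          exact Or.inr (apex_mem (e ▸ insert_nonempty _ _))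
        · rw [e1 j hd h2] at hy
          exact cut_mono (Q.subset_rbd R hj) hy
      rw [hb, h]
      by_cases h2 : i ∈ A
      · rw [e2 i h2]
        exact (hD i h2).1
      · rw [e3 i (by omega) h2, cut_eq_self fun y hy => ht.2.trans_le (not_lt.1 fun k =>
          h2 ((hA i).2 ⟨h, y, hR.rbd_subset hi hy, k⟩))]
        exact h ▸ hR.ball i hi
  · refine disjoint_left.2 fun y ⟨a1, a2⟩ ⟨b1, b2⟩ => ?_
    obtain ⟨u1, u2⟩ := hpt i hi y a1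
    obtain ⟨v1, v2⟩ := hpt j hj y b1
    rcases le_or_gt t (g (y - c)) with h | h
    · exact disjoint_left.1 (hR.disj i j hi hj hne)
        ⟨u1 h, fun k => a2 (hbd i hi (mem_cut_of_high k h))⟩
        ⟨v1 h, fun k => b2 (hbd j hj (mem_cut_of_high k h))⟩
    rcases u2 h with ⟨m1, m2⟩ | ⟨m1, m2⟩ <;> rcases v2 h with ⟨n1, n2⟩ | ⟨n1, n2⟩
    · exact disjoint_left.1 (hW i m1 j n1 hne) m2 n2
    · exact disjoint_left.1 (hD i m1).2.1 m2 (hcone j y n2)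
    · exact disjoint_left.1 (hD j n1).2.1 n2 (hcone i y m2)
    by_cases hyc : y = c
    · rw [hyc] at a2 b2
      exact hne ((hapex i m1 a2).trans (hapex j n1 b2).symm)
    obtain ⟨s, hs, x, hx, e⟩ := m2.resolve_left hyc
    obtain ⟨s', hs', x', hx', e'⟩ := n2.resolve_left hyc
    obtain rfl : x = x' := (ray_unique hh ht0 hs.1 hs'.1 (hΓt x hx.2) (hΓt x' hx'.2)
      (e.symm.trans e')).resolve_left (e ▸ hyc)
    exact disjoint_left.1 (hR.disj i j hi hj hne)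
      ⟨hx.1, fun k => a2 (hbd i hi (Or.inr ⟨s, hs, x, ⟨k, hΓt x hx.2⟩, e⟩))⟩
      ⟨hx'.1, fun k => b2 (hbd j hj (Or.inr ⟨s, hs, x, ⟨k, hΓt x hx.2⟩, e⟩))⟩
  · have hout : ∀ i, Q.dim i ≤ 2 → i ∉ {i | Q.dim i ≤ 2 ∧ ∃ y ∈ R i, g (y - c) ≤ t₂} →
        R' i = R i ∧ ∀ y ∈ R i, t₂ ≤ g (y - c) := fun i hi h =>
      have : ∀ y ∈ R i, t₂ ≤ g (y - c) := fun y hy => not_lt.1 fun k => h ⟨hi, y, hy, k.le⟩
      ⟨hfix i hi this, this⟩
    rcases le_or_gt t (g (y - c)) with h | h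
    · obtain ⟨i, hi, hy⟩ := Q.mem_rskel.1 hy
      obtain ⟨U, hU, hf⟩ := hR.lf y (Q.mem_rskel.2 ⟨i, hi, (hpt i hi y hy).1 h⟩)
      refine ⟨U, hU, (hfin.union hf).subset fun j hj => ?_⟩
      by_contra k
      rw [mem_union, not_or] at k
      exact k.2 ⟨hj.1, (hout j hj.1 k.1).1 ▸ hj.2⟩
    · refine ⟨{y | g (y - c) < t₂}, (isOpen_lt hG continuous_const).mem_nhds (h.trans ht.2),
        hfin.subset fun j hj => ?_⟩
      by_contra k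
      obtain ⟨z, hz, hz'⟩ := hj.2
      obtain ⟨k1, k2⟩ := hout j hj.1 k
      exact (k2 z (k1 ▸ hz)).not_gt hz'
  · rcases le_or_gt t (g (y - c)) with h | h
    · exact Or.inl ((hpt i hi y hy).1 h)
    · exact Or.inr h.le

end P073
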