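import Vale.Agent.P073Z.Sk2

/-!
# Pieces of the cone surgery
-/

open Set Metric Topology Filter

namespace P073

/-- the part of `X` above the level `t`, together with the cone over the part at the level `t` -/
def cutAt (g : E3 → ℝ) (c : E3) (t : ℝ) (X : Set E3) : Set E3 :=
  {y ∈ X | t ≤ g (y - c)} ∪ coneSetAt c {y ∈ X | g (y - c) = t}

/-- disjoint caps below the level `t` over disjoint circles at the level `t` -/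
def CSCAP : Prop := ∀ {ι : Type} (s : Finset ι) (J : ι → Set E3) {g : E3 → ℝ} {c : E3} {t : ℝ}
  {Γ : Set E3}, PLOn g univ → (∀ x, ∀ r : ℝ, 0 ≤ r → g (r • x) = r * g x) →
  (∀ x, x ≠ 0 → 0 < g x) → 0 < t →
  (∀ i ∈ s, IsCircle (J i) ∧ (∀ y ∈ J i, g (y - c) = t) ∧ Disjoint (J i) Γ) →
  (∀ i ∈ s, ∀ j ∈ s, i ≠ j → Disjoint (J i) (J j)) →
  IsConnected Γ → (∀ y ∈ Γ, g (y - c) = t) →
  ∃ C : ι → Set E3, (∀ i ∈ s, ConBall 2 (C i) (J i) ∧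
      (∀ y ∈ C i, g (y - c) ≤ t ∧ (g (y - c) = t → y ∈ J i)) ∧
      Disjoint (C i) (coneSetAt c Γ)) ∧
    ∀ i ∈ s, ∀ j ∈ s, i ≠ j → Disjoint (C i) (C j)

/-- surgery in one face: the level set consists of circles and at most one cross-cut -/
def CSFACE : Prop := ∀ {E : Type} [NormedAddCommGroup E] [NormedSpace ℝ E]
  {D B B' : Set E} {G : E → ℝ} {t : ℝ} (𝒞 : Finset (Set E)) (C L : Set E → Set E),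
  ConBall 2 D B → ContinuousOn G D → {x ∈ D | G x = t} = ⋃ c ∈ 𝒞, c →
  (∀ c ∈ 𝒞, ∀ c' ∈ 𝒞, c ≠ c' → Disjoint c c' ∧ Disjoint (C c) (C c')) →
  (∀ c ∈ 𝒞, ConBall 2 (C c) (L c) ∧ c ⊆ L c ∧ ∀ y ∈ C c, G y ≤ t ∧ (G y = t → y ∈ c)) →
  (∃ y ∈ B, t < G y) →
  (((∀ c ∈ 𝒞, IsCircle c ∧ Disjoint c B ∧ L c = c) ∧ B' = B) ∨
    ∃ α ∈ 𝒞, ∃ p q, IsArc α p q ∧ α ∩ B = {p, q} ∧ (∃ y ∈ B, G y < t) ∧
      (∀ c ∈ 𝒞, c ≠ α → IsCircle c ∧ Disjoint c B ∧ L c = c) ∧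
      B' = {y ∈ B | t ≤ G y} ∪ (L α \ (α \ {p, q}))) →
  ∃ D', ConBall 2 D' B' ∧ D' ⊆ {y ∈ D | t ≤ G y} ∪ ⋃ c ∈ 𝒞, C c

/-- the level points on the boundary of a face -/
def CSLEV : Prop := ∀ (Q : RCx E3) (R : Q.ι → Set E3) (i₀ : Q.ι) {G : E3 → ℝ} {t : ℝ},
  Realiz Q 2 R → Q.dim i₀ ≤ 1 →
  (∀ j, Q.dim j ≤ 1 → ¬ Q.cell i₀ ⊆ Q.cell j → ∀ y ∈ R j, t < G y) →
  (∃ y ∈ R i₀, G y < t) →
  (∀ e, Q.dim e = 1 → Q.cell i₀ ⊆ Q.cell e → {y ∈ R e | G y = t}.ncard = Q.dim i₀ + 1) →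
  ∀ φ, Q.dim φ = 2 → (∃ y ∈ Q.rbd R φ, t < G y) ∧
    (¬ Q.cell i₀ ⊆ Q.cell φ → ∀ y ∈ Q.rbd R φ, t < G y) ∧
    (Q.cell i₀ ⊆ Q.cell φ → (∃ y ∈ Q.rbd R φ, G y < t) ∧
      ∃ p q, p ≠ q ∧ {y ∈ Q.rbd R φ | G y = t} = {p, q})

/-- the link of a vertex or of an edge is connected -/
def CSGAM : Prop := ∀ (Q : RCx E3) (i₀ : Q.ι) (α Z : Q.ι → Set E3), IsOpen Q.carrier →
  Q.dim i₀ ≤ 1 →
  (∀ φ, Q.dim φ = 2 → Q.cell i₀ ⊆ Q.cell φ → IsPreconnected (α φ) ∧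
    ∀ e, Q.dim e = 1 → Q.cell i₀ ⊆ Q.cell e → Q.cell e ⊆ Q.cell φ → Z e ⊆ α φ) →
  (∀ e, Q.dim e = 1 → Q.cell i₀ ⊆ Q.cell e → (Z e).Nonempty) →
  IsConnected (⋃ φ, ⋃ (_ : Q.dim φ = 2 ∧ Q.cell i₀ ⊆ Q.cell φ), α φ) ∧
    ∀ e, Q.dim e ≤ 1 → ∃ φ, Q.dim φ = 2 ∧ Q.cell e ⊆ Q.cell φ

/-- surgery on an edge -/
def CSEDGE : Prop := ∀ {A : Set E3} {p q c : E3} {g : E3 → ℝ} {t : ℝ}, Continuous g →
  (∀ x, ∀ r : ℝ, 0 ≤ r → g (r • x) = r * g x) → (∀ x, x ≠ 0 → 0 < g x) → 0 < t →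
  IsArc A p q → t < g (q - c) →
  (g (p - c) < t → {y ∈ A | g (y - c) = t}.ncard = 1 → IsArc (cutAt g c t A) c q) ∧
  (t < g (p - c) → (∃ y ∈ A, g (y - c) < t) → {y ∈ A | g (y - c) = t}.ncard = 2 →
    IsArc (cutAt g c t A) p q)

end P073
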